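import Mathlib

/-!
# Polynomial families of vectors and linear maps
-/

namespace Vale.Agent.P182.H250

open Module Polynomial Filter

variable {L : Type*} [Field L]

section basic

variable {E E₂ E₃ : Type*} [AddCommGroup E] [Module L E] [AddCommGroup E₂] [Module L E₂]
  [AddCommGroup E₃] [Module L E₃]

/-- polynomial families -/
def IsPoly (f : L → E) : Prop :=
  ∃ (n : ℕ) (c : ℕ → E), ∀ τ, f τ = ∑ i ∈ Finset.range n, τ ^ i • c i

namespace IsPoly

/-- enlarging the range of summation -/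
theorem exists_ge {f : L → E} (h : IsPoly f) : ∃ (n : ℕ) (c : ℕ → E), ∀ m, n ≤ m → ∀ τ,
    f τ = ∑ i ∈ Finset.range m, τ ^ i • c i := by
  obtain ⟨n, c, hc⟩ := h
  refine ⟨n, fun i => if i < n then c i else 0, fun m hm τ => ?_⟩
  rw [hc, ← Finset.sum_subset (Finset.range_mono hm)]
  · refine Finset.sum_congr rfl fun i hi => ?_
    beta_reduce
    rw [if_pos (Finset.mem_range.mp hi)]
  · intro i _ hi
    beta_reduce
    rw [if_neg (fun h => hi (Finset.mem_range.mpr h)), smul_zero]

theorem const (a : E) : IsPoly (fun _ : L => a) :=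
  ⟨1, fun _ => a, fun τ => by simp⟩

theorem add {f g : L → E} (hf : IsPoly f) (hg : IsPoly g) : IsPoly (fun τ => f τ + g τ) := by
  obtain ⟨n, c, hc⟩ := hf.exists_ge
  obtain ⟨m, d, hd⟩ := hg.exists_ge
  refine ⟨max n m, fun i => c i + d i, fun τ => ?_⟩
  beta_reduce
  rw [hc _ (le_max_left n m), hd _ (le_max_right n m), ← Finset.sum_add_distrib]
  exact Finset.sum_congr rfl fun i _ => (smul_add _ _ _).symm

theorem map {f : L → E} (hf : IsPoly f) (g : E →ₗ[L] E₂) : IsPoly (fun τ => g (f τ)) := by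
  obtain ⟨n, c, hc⟩ := hf
  refine ⟨n, fun i => g (c i), fun τ => ?_⟩
  beta_reduce
  rw [hc, map_sum]
  exact Finset.sum_congr rfl fun i _ => map_smul _ _ _

theorem neg {f : L → E} (hf : IsPoly f) : IsPoly (fun τ => - f τ) :=
  hf.map (-LinearMap.id)

theorem sub {f g : L → E} (hf : IsPoly f) (hg : IsPoly g) : IsPoly (fun τ => f τ - g τ) := by
  simpa only [sub_eq_add_neg] using hf.add hg.neg

theorem mulX {f : L → E} (hf : IsPoly f) : IsPoly (fun τ => τ • f τ) := by
  obtain ⟨n, c, hc⟩ := hf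
  refine ⟨n + 1, fun i => if i = 0 then 0 else c (i - 1), fun τ => ?_⟩
  beta_reduce
  rw [Finset.sum_range_succ', hc, Finset.smul_sum]
  simp [pow_succ', smul_smul]

theorem mulXn {f : L → E} (hf : IsPoly f) (n : ℕ) : IsPoly (fun τ => τ ^ n • f τ) := by
  induction n with
  | zero => simpa using hf
  | succ n ih =>
    have := ih.mulX
    refine (congrArg IsPoly (funext fun τ => ?_)).mp this
    rw [pow_succ', smul_smul]

theorem sum {ι : Type*} (s : Finset ι) {f : ι → L → E} (hf : ∀ i ∈ s, IsPoly (f i)) :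
    IsPoly (fun τ => ∑ i ∈ s, f i τ) := by
  classical
  induction s using Finset.induction_on with
  | empty => simpa using const (0 : E)
  | insert i s hi ih =>
    have h1 := (hf i (Finset.mem_insert_self i s)).add
      (ih fun j hj => hf j (Finset.mem_insert_of_mem hj))
    refine (congrArg IsPoly (funext fun τ => ?_)).mp h1
    rw [Finset.sum_insert hi]

theorem bil {f : L → E} {g : L → E₂} (hf : IsPoly f) (hg : IsPoly g)
    (B : E →ₗ[L] E₂ →ₗ[L] E₃) : IsPoly (fun τ => B (f τ) (g τ)) := by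
  obtain ⟨n, c, hc⟩ := hf
  have h1 : (fun τ => B (f τ) (g τ)) =
      fun τ => ∑ i ∈ Finset.range n, τ ^ i • B (c i) (g τ) := by
    funext τ
    rw [hc, map_sum, LinearMap.sum_apply]
    exact Finset.sum_congr rfl fun i _ => by rw [map_smul, LinearMap.smul_apply]
  rw [h1]
  exact sum _ fun i _ => (hg.map (B (c i))).mulXn i

theorem pi {ι : Type*} [Finite ι] {E : ι → Type*} [∀ i, AddCommGroup (E i)] [∀ i, Module L (E i)]
    {f : L → ∀ i, E i} (hf : ∀ i, IsPoly (fun τ => f τ i)) : IsPoly f := by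
  classical
  cases nonempty_fintype ι
  have h1 : f = fun τ => ∑ i, LinearMap.single L E i (f τ i) := by
    funext τ
    exact (LinearMap.sum_single_apply E (f τ)).symm
  rw [h1]
  exact sum _ fun i _ => (hf i).map _

theorem prod {f : L → E} {g : L → E₂} (hf : IsPoly f) (hg : IsPoly g) :
    IsPoly (fun τ => (f τ, g τ)) := by
  have h1 := (hf.map (LinearMap.inl L E E₂)).add (hg.map (LinearMap.inr L E E₂))
  refine (congrArg IsPoly (funext fun τ => ?_)).mp h1
  simp

theorem id : IsPoly (fun τ : L => τ) := by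
  have := (const (L := L) (1 : L)).mulX
  refine (congrArg IsPoly (funext fun τ => ?_)).mp this
  rw [smul_eq_mul, mul_one]

theorem smul {f : L → L} {g : L → E} (hf : IsPoly f) (hg : IsPoly g) :
    IsPoly (fun τ => f τ • g τ) := hf.bil hg (LinearMap.lsmul L E)

theorem mul {f g : L → L} (hf : IsPoly f) (hg : IsPoly g) : IsPoly (fun τ => f τ * g τ) :=
  hf.smul hg

theorem fprod {ι : Type*} (s : Finset ι) {f : ι → L → L} (hf : ∀ i ∈ s, IsPoly (f i)) :
    IsPoly (fun τ => ∏ i ∈ s, f i τ) := by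
  classical
  induction s using Finset.induction_on with
  | empty => simpa using const (1 : L)
  | insert i s hi ih =>
    have h1 := (hf i (Finset.mem_insert_self i s)).mul
      (ih fun j hj => hf j (Finset.mem_insert_of_mem hj))
    refine (congrArg IsPoly (funext fun τ => ?_)).mp h1
    rw [Finset.prod_insert hi]

/-- scalar families are polynomials -/
theorem exists_poly {f : L → L} (hf : IsPoly f) : ∃ p : L[X], ∀ τ, f τ = p.eval τ := by
  obtain ⟨n, c, hc⟩ := hf
  refine ⟨∑ i ∈ Finset.range n, C (c i) * X ^ i, fun τ => ?_⟩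
  rw [hc, eval_finsetSum]
  refine Finset.sum_congr rfl fun i _ => ?_
  rw [eval_mul, eval_C, eval_pow, eval_X, smul_eq_mul, mul_comm]

theorem of_poly (p : L[X]) : IsPoly (fun τ => p.eval τ) :=
  ⟨p.natDegree + 1, p.coeff, fun τ => by
    beta_reduce
    rw [eval_eq_sum_range]
    exact Finset.sum_congr rfl fun i _ => by rw [smul_eq_mul, mul_comm]⟩

/-- the zero set is finite -/
theorem eventually_ne_zero {f : L → L} (hf : IsPoly f) {a : L} (h0 : f a ≠ 0) :
    ∀ᶠ τ in cofinite, f τ ≠ 0 := by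
  obtain ⟨p, hp⟩ := hf.exists_poly
  have hp0 : p ≠ 0 := by
    rintro rfl
    exact h0 (by rw [hp, eval_zero])
  classical
  rw [eventually_cofinite]
  refine (p.roots.toFinset.finite_toSet).subset ?_
  intro τ hτ
  have h1 : f τ = 0 := not_not.mp hτ
  rw [Finset.mem_coe, Multiset.mem_toFinset, mem_roots hp0, IsRoot, ← hp, h1]

/-- separation by functionals -/
theorem eventually_ne_zero' {f : L → E} (hf : IsPoly f) {a : L} (h0 : f a ≠ 0) :
    ∀ᶠ τ in cofinite, f τ ≠ 0 := by
  obtain ⟨φ, hφ⟩ : ∃ φ : Dual L E, φ (f a) ≠ 0 := by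
    by_contra h
    push Not at h
    exact h0 ((Module.forall_dual_apply_eq_zero_iff L (f a)).mp h)
  have h1 : IsPoly (fun τ => φ (f τ)) := hf.map φ
  filter_upwards [h1.eventually_ne_zero (a := a) hφ] with τ hτ h2
  exact hτ (by rw [h2, map_zero])

theorem eq_zero_of_frequently {f : L → E} (hf : IsPoly f)
    (h : ∃ᶠ τ in cofinite, f τ = 0) (a : L) : f a = 0 := by
  by_contra h0
  exact h (hf.eventually_ne_zero' h0)

end IsPoly

/-! ### jets -/

/-- `f = a + τ b + O(τ²)` -/
def Jet (f : L → E) (a b : E) : Prop := ∃ r : L → E, IsPoly r ∧ ∀ τ, f τ = a + τ • b + τ ^ 2 • r τ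

namespace Jet

theorem of_isPoly {f : L → E} (hf : IsPoly f) : ∃ b, Jet f (f 0) b := by
  obtain ⟨n, c, hc⟩ := hf.exists_ge
  refine ⟨c 1, fun τ => ∑ i ∈ Finset.range n, τ ^ i • c (i + 2), ⟨n, _, fun _ => rfl⟩, fun τ => ?_⟩
  have h1 : ∀ τ, f τ = c 0 + τ • c 1 + τ ^ 2 • ∑ i ∈ Finset.range n, τ ^ i • c (i + 2) := by
    intro τ
    rw [hc (n + 2) (by omega), Finset.sum_range_succ', Finset.sum_range_succ', Finset.smul_sum]
    simp only [zero_add, pow_one, pow_zero, one_smul, smul_smul, ← pow_add]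
    rw [add_comm, add_comm (∑ i ∈ Finset.range n, _) _, add_assoc]
    congr 1
    congr 1
    refine Finset.sum_congr rfl fun i _ => ?_
    rw [add_comm 2 i]
  have h0 : f 0 = c 0 := by
    rw [h1 0]
    simp
  rw [h0]
  exact h1 τ

theorem isPoly {f : L → E} {a b : E} (h : Jet f a b) : IsPoly f := by
  obtain ⟨r, hr, h⟩ := h
  have h1 := ((IsPoly.const (L := L) a).add (IsPoly.const b).mulX).add (hr.mulXn 2)
  exact (congrArg IsPoly (funext fun τ => (h τ).symm)).mp h1

theorem zero_eq {f : L → E} {a b : E} (h : Jet f a b) : f 0 = a := by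
  obtain ⟨r, _, h⟩ := h
  rw [h 0]
  simp

theorem const (a : E) : Jet (fun _ : L => a) a 0 :=
  ⟨fun _ => 0, IsPoly.const 0, fun τ => by simp⟩

theorem map {f : L → E} {a b : E} (h : Jet f a b) (g : E →ₗ[L] E₂) :
    Jet (fun τ => g (f τ)) (g a) (g b) := by
  obtain ⟨r, hr, h⟩ := h
  refine ⟨fun τ => g (r τ), hr.map g, fun τ => ?_⟩
  beta_reduce
  rw [h τ, map_add, map_add, map_smul, map_smul]

theorem add {f g : L → E} {a b c d : E} (h : Jet f a b) (h' : Jet g c d) :
    Jet (fun τ => f τ + g τ) (a + c) (b + d) := by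
  obtain ⟨r, hr, h⟩ := h
  obtain ⟨r', hr', h'⟩ := h'
  refine ⟨fun τ => r τ + r' τ, hr.add hr', fun τ => ?_⟩
  beta_reduce
  rw [h τ, h' τ]
  simp only [smul_add]
  abel

theorem sub {f g : L → E} {a b c d : E} (h : Jet f a b) (h' : Jet g c d) :
    Jet (fun τ => f τ - g τ) (a - c) (b - d) := by
  have h2 := h.add (h'.map (-LinearMap.id))
  simpa only [sub_eq_add_neg, LinearMap.neg_apply, LinearMap.id_apply] using h2

theorem sum {ι : Type*} (s : Finset ι) {f : ι → L → E} {a b : ι → E}
    (hf : ∀ i ∈ s, Jet (f i) (a i) (b i)) :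
    Jet (fun τ => ∑ i ∈ s, f i τ) (∑ i ∈ s, a i) (∑ i ∈ s, b i) := by
  classical
  induction s using Finset.induction_on with
  | empty => simpa using const (L := L) (0 : E)
  | insert i s hi ih =>
    have h1 := (hf i (Finset.mem_insert_self i s)).add
      (ih fun j hj => hf j (Finset.mem_insert_of_mem hj))
    rw [Finset.sum_insert hi, Finset.sum_insert hi]
    refine (congrArg (fun F => Jet F _ _) (funext fun τ => ?_)).mp h1
    rw [Finset.sum_insert hi]

theorem bil {f : L → E} {g : L → E₂} {a b : E} {c d : E₂} (h : Jet f a b) (h' : Jet g c d)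
    (B : E →ₗ[L] E₂ →ₗ[L] E₃) :
    Jet (fun τ => B (f τ) (g τ)) (B a c) (B a d + B b c) := by
  obtain ⟨r, hr, h⟩ := h
  obtain ⟨r', hr', h'⟩ := h'
  have p1 := ((((IsPoly.const (L := L) (B b d)).add (hr'.map (B a))).add
    ((hr'.map (B b)).mulX)).add ((hr.map (B.flip c)))).add
    (((hr.map (B.flip d)).mulX).add ((hr.bil hr' B).mulXn 2))
  refine ⟨_, p1, fun τ => ?_⟩
  beta_reduce
  rw [h τ, h' τ]
  simp only [map_add, map_smul, LinearMap.add_apply, LinearMap.smul_apply, LinearMap.flip_apply,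
    smul_add, smul_smul]
  ring_nf
  abel

/-- the coefficients of a vanishing family vanish -/
theorem eq_zero [Infinite L] {f : L → E} {a b : E} (h : Jet f a b) (h0 : ∀ τ, f τ = 0) :
    a = 0 ∧ b = 0 := by
  have ha : a = 0 := by rw [← h.zero_eq, h0]
  refine ⟨ha, ?_⟩
  obtain ⟨r, hr, h⟩ := h
  have h1 : IsPoly (fun τ => b + τ • r τ) := (IsPoly.const b).add hr.mulX
  have h2 : ∃ᶠ τ in cofinite, b + τ • r τ = 0 := by
    refine (Filter.Eventually.frequently ?_)
    filter_upwards [(Set.finite_singleton (0 : L)).eventually_cofinite_notMem] with τ hτ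
    have h3 := h τ
    rw [h0, ha, zero_add] at h3
    have h4 : τ • (b + τ • r τ) = 0 := by
      rw [smul_add, smul_smul, ← pow_two, ← h3]
    exact (smul_eq_zero.mp h4).resolve_left hτ
  have h3 := h1.eq_zero_of_frequently h2 0
  simpa using h3

/-- a family with `f 0 = 0` is divisible by `τ` -/
theorem pi {ι : Type*} [Finite ι] {f : L → ι → E} {a b : ι → E}
    (h : ∀ i, Jet (fun τ => f τ i) (a i) (b i)) : Jet f a b := by
  choose r hr h using h
  exact ⟨fun τ i => r i τ, IsPoly.pi hr, fun τ => funext fun i => h i τ⟩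

theorem unique [Infinite L] {f : L → E} {a b c d : E} (h : Jet f a b) (h' : Jet f c d) :
    a = c ∧ b = d := by
  have h1 := (h.sub h').eq_zero fun τ => sub_self _
  exact ⟨sub_eq_zero.mp h1.1, sub_eq_zero.mp h1.2⟩

end Jet

end basic

section openness

variable {U U' : Type*} [AddCommGroup U] [Module L U] [AddCommGroup U'] [Module L U']

theorem IsPoly.comp {U'' : Type*} [AddCommGroup U''] [Module L U''] {T : L → (U →ₗ[L] U')}
    {T' : L → (U' →ₗ[L] U'')} (h : IsPoly T) (h' : IsPoly T') :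
    IsPoly (fun τ => (T' τ).comp (T τ)) := h'.bil h (LinearMap.llcomp L U U' U'')

theorem IsPoly.apply {T : L → (U →ₗ[L] U')} {v : L → U} (h : IsPoly T) (hv : IsPoly v) :
    IsPoly (fun τ => T τ (v τ)) := h.bil hv (LinearMap.id)

/-- determinants of polynomial families -/
theorem IsPoly.det [FiniteDimensional L U] {T : L → (U →ₗ[L] U)} (h : IsPoly T) :
    IsPoly (fun τ => LinearMap.det (T τ)) := by
  classical
  let b := finBasis L U
  have h1 : ∀ τ, LinearMap.det (T τ) = (LinearMap.toMatrix b b (T τ)).det := fun τ =>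
    (LinearMap.det_toMatrix b (T τ)).symm
  simp_rw [h1, Matrix.det_apply']
  refine IsPoly.sum _ fun σ _ => ?_
  refine IsPoly.mul (IsPoly.const _) (IsPoly.fprod _ fun i _ => ?_)
  have h2 : IsPoly (fun τ => b.repr (T τ (b i)) (σ i)) :=
    (h.apply (IsPoly.const (b i))).map (b.coord (σ i))
  refine (congrArg IsPoly (funext fun τ => ?_)).mp h2
  rw [LinearMap.toMatrix_apply]

/-- injectivity is open -/
theorem eventually_injective [FiniteDimensional L U] {T : L → (U →ₗ[L] U')} (h : IsPoly T) {a : L}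
    (h0 : LinearMap.ker (T a) = ⊥) : ∀ᶠ τ in cofinite, LinearMap.ker (T τ) = ⊥ := by
  obtain ⟨R, hR⟩ := (T a).exists_leftInverse_of_injective h0
  have h1 : IsPoly (fun τ => R.comp (T τ)) := h.map (LinearMap.llcomp L U U' U R)
  have h2 := (h1.det).eventually_ne_zero (a := a) (by
    rw [hR, LinearMap.det_id]; exact one_ne_zero)
  filter_upwards [h2] with τ hτ
  have h3 : LinearMap.ker (R.comp (T τ)) = ⊥ := by
    by_contra h4
    exact hτ (LinearMap.det_eq_zero_iff_ker_ne_bot.mpr h4)
  rw [LinearMap.ker_eq_bot'] at h3 ⊢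
  intro v hv
  exact h3 v (by rw [LinearMap.comp_apply, hv, map_zero])

/-- surjectivity is open -/
theorem eventually_surjective [FiniteDimensional L U'] {T : L → (U →ₗ[L] U')} (h : IsPoly T)
    {a : L} (h0 : LinearMap.range (T a) = ⊤) : ∀ᶠ τ in cofinite, LinearMap.range (T τ) = ⊤ := by
  obtain ⟨R, hR⟩ := (T a).exists_rightInverse_of_surjective h0
  have h1 : IsPoly (fun τ => (T τ).comp R) := (IsPoly.const R).comp h
  have h2 := (h1.det).eventually_ne_zero (a := a) (by
    rw [hR, LinearMap.det_id]; exact one_ne_zero)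
  filter_upwards [h2] with τ hτ
  have h3 : LinearMap.range ((T τ).comp R) = ⊤ := by
    rw [← LinearMap.ker_eq_bot_iff_range_eq_top]
    by_contra h4
    exact hτ (LinearMap.det_eq_zero_iff_ker_ne_bot.mpr h4)
  rw [eq_top_iff, ← h3]
  exact LinearMap.range_comp_le_range _ _

end openness

end Vale.Agent.P182.H250
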