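import Mathlib

/-!
# Coefficient extraction and exactness of the tails

`exact_of_identity`: finitely many linear maps `ε m : U → X` satisfying
`∑ ρ^(m+2) ε m (A a u) = ∑ ρ^m B a (ε m u) + ∑ ρ^m f m a u` for infinitely many `ρ` vanish in the
degrees above the support of `f` (parity by parity), provided `U = ∑ A a U`.
-/

namespace Vale.Agent.P182.H250

open Module

section coeff

variable {L X : Type*} [Field L] [AddCommGroup X] [Module L X]

/-- a polynomial with vector coefficients vanishing at infinitely many points is zero -/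
theorem vcoeff_zero {n : ℕ} (v : ℕ → X) {R : Set L} (hR : R.Infinite)
    (h : ∀ ρ ∈ R, ∑ m ∈ Finset.range n, ρ ^ m • v m = 0) : ∀ m < n, v m = 0 := by
  intro m hm
  rw [← Module.forall_dual_apply_eq_zero_iff L]
  intro φ
  set p : Polynomial L := ∑ k ∈ Finset.range n, Polynomial.C (φ (v k)) * Polynomial.X ^ k with hp
  have hp0 : p = 0 := by
    apply Polynomial.eq_zero_of_infinite_isRoot
    refine hR.mono fun ρ hρ => ?_
    have h1 := congrArg φ (h ρ hρ)
    rw [map_sum, map_zero] at h1
    show p.eval ρ = 0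
    rw [hp, Polynomial.eval_finsetSum, ← h1]
    refine Finset.sum_congr rfl fun k _ => ?_
    rw [map_smul, smul_eq_mul, Polynomial.eval_mul, Polynomial.eval_C, Polynomial.eval_pow,
      Polynomial.eval_X, mul_comm]
  have h2 : p.coeff m = φ (v m) := by
    rw [hp, Polynomial.finsetSum_coeff]
    rw [Finset.sum_eq_single m]
    · rw [Polynomial.coeff_C_mul, Polynomial.coeff_X_pow, if_pos rfl, mul_one]
    · intro k _ hk
      rw [Polynomial.coeff_C_mul, Polynomial.coeff_X_pow, if_neg (Ne.symm hk), mul_zero]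
    · intro hk
      exact absurd (Finset.mem_range.2 hm) hk
  rw [← h2, hp0, Polynomial.coeff_zero]

/-- **coefficient extraction**: if the values of a vector polynomial at infinitely many points lie
in a submodule, all coefficients do -/
theorem vcoeff_mem {n : ℕ} (v : ℕ → X) (P : Submodule L X) {R : Set L} (hR : R.Infinite)
    (h : ∀ ρ ∈ R, ∑ m ∈ Finset.range n, ρ ^ m • v m ∈ P) : ∀ m < n, v m ∈ P := by
  intro m hm
  have h1 := vcoeff_zero (n := n) (fun k => P.mkQ (v k)) hR (fun ρ hρ => by
    have h2 : P.mkQ (∑ m ∈ Finset.range n, ρ ^ m • v m) = 0 :=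
      (Submodule.Quotient.mk_eq_zero P).2 (h ρ hρ)
    rw [map_sum] at h2
    rw [← h2]
    exact Finset.sum_congr rfl fun k _ => (map_smul _ _ _).symm) m hm
  exact (Submodule.Quotient.mk_eq_zero P).1 h1

end coeff

section exact

variable {L U X ι : Type*} [Field L] [AddCommGroup U] [Module L U] [AddCommGroup X] [Module L X]

/-- the recursion for the coefficients -/
theorem recursion_of_identity {A : ι → U →ₗ[L] U} {B : ι → X →ₗ[L] X} {M : ℕ}
    (ε : ℕ → U →ₗ[L] X) (f : ℕ → ι → U →ₗ[L] X) {R : Set L} (hR : R.Infinite)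
    (h : ∀ ρ ∈ R, ∀ a u, ∑ m ∈ Finset.range M, ρ ^ (m + 2) • ε m (A a u) =
      ∑ m ∈ Finset.range M, ρ ^ m • B a (ε m u) + ∑ m ∈ Finset.range (M + 2), ρ ^ m • f m a u)
    (m : ℕ) (hm : m < M) (a : ι) (u : U) :
    ε m (A a u) = (if m + 2 < M then B a (ε (m + 2) u) else 0) + f (m + 2) a u := by
  have h1 := vcoeff_zero (n := M + 2)
    (fun k => (if 2 ≤ k then ε (k - 2) (A a u) else 0) - (if k < M then B a (ε k u) else 0)
      - f k a u) hR (fun ρ hρ => by
      have h2 := h ρ hρ a u
      have h3 : ∑ k ∈ Finset.range (M + 2), ρ ^ k • (if 2 ≤ k then ε (k - 2) (A a u) else 0) =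
          ∑ m ∈ Finset.range M, ρ ^ (m + 2) • ε m (A a u) := by
        rw [Finset.sum_range_succ', Finset.sum_range_succ']
        simp
      have h4 : ∑ k ∈ Finset.range (M + 2), ρ ^ k • (if k < M then B a (ε k u) else 0) =
          ∑ m ∈ Finset.range M, ρ ^ m • B a (ε m u) := by
        rw [Finset.sum_range_succ, Finset.sum_range_succ]
        rw [if_neg (by omega), if_neg (by omega), smul_zero, smul_zero, add_zero, add_zero]
        exact Finset.sum_congr rfl fun k hk => by rw [if_pos (Finset.mem_range.1 hk)]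
      simp only [smul_sub, Finset.sum_sub_distrib]
      rw [h3, h4, h2]
      abel) (m + 2) (by omega)
  have h5 : ε m (A a u) - (if m + 2 < M then B a (ε (m + 2) u) else 0) - f (m + 2) a u = 0 := by
    simpa using h1
  rw [sub_sub, sub_eq_zero] at h5
  exact h5

/-- **exactness**: the errors vanish above the support of the inhomogeneity, parity by parity -/
theorem exact_of_identity {A : ι → U →ₗ[L] U} {B : ι → X →ₗ[L] X} {M : ℕ}
    (hA : ⨆ a, LinearMap.range (A a) = ⊤) (ε : ℕ → U →ₗ[L] X) (f : ℕ → ι → U →ₗ[L] X)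
    {R : Set L} (hR : R.Infinite)
    (h : ∀ ρ ∈ R, ∀ a u, ∑ m ∈ Finset.range M, ρ ^ (m + 2) • ε m (A a u) =
      ∑ m ∈ Finset.range M, ρ ^ m • B a (ε m u) + ∑ m ∈ Finset.range (M + 2), ρ ^ m • f m a u)
    {c m0 : ℕ} (hf : ∀ m, m0 ≤ m → m < M → m % 2 = c → ∀ a, f (m + 2) a = 0) :
    ∀ m, m0 ≤ m → m < M → m % 2 = c → ε m = 0 := by
  have key : ∀ d m, M - m ≤ d → m0 ≤ m → m < M → m % 2 = c → ε m = 0 := by
    intro d
    induction d with
    | zero => intro m h1 _ h3; omega
    | succ d ih =>
      intro m h1 h2 h3 h4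
      have h5 : ∀ a u, ε m (A a u) = 0 := by
        intro a u
        rw [recursion_of_identity ε f hR h m h3 a u, hf m h2 h3 h4 a, LinearMap.zero_apply,
          add_zero]
        split_ifs with h6
        · rw [ih (m + 2) (by omega) (by omega) h6 (by omega), LinearMap.zero_apply, map_zero]
        · rfl
      have h6 : (⊤ : Submodule L U) ≤ LinearMap.ker (ε m) := by
        rw [← hA]
        refine iSup_le fun a => ?_
        rintro _ ⟨u, rfl⟩
        exact h5 a u
      exact LinearMap.ext fun u => h6 (Submodule.mem_top (x := u))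
  exact fun m => key (M - m) m le_rfl

end exact

end Vale.Agent.P182.H250
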