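import Vale.Agent.P182.H361.Alt

/-!
# `φ φ^* ≠ 0`
-/

namespace Vale.Agent.P182.H250

open LinearMap Submodule Module Vale.Agent.P182 Vale.Agent.P182.H430 Vale.Agent.P182.H388
  Vale.Agent.P182.H578 Vale.Agent.P182.H735 Vale.Agent.P182.H361

variable {k F P : Type*} [Field k] [Field F] [Algebra k F] {C : Curve k F P}
variable {E : Type*} [AddCommGroup E] [Module F E] [Module k E] [IsScalarTower k F E]
  [FiniteDimensional F E]
variable {W : Type*} [AddCommGroup W] [Module F W] [Module k W] [IsScalarTower k F W]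
  [FiniteDimensional F W]
variable {κ : P → ℤ} {N : Bun C E} {b : LinearMap.BilinForm F E} {M : Bun C W}
  {q : LinearMap.BilinForm F W} {φ : E →ₗ[F] W}

omit [IsScalarTower k F E] [FiniteDimensional F E] [IsScalarTower k F W]
  [FiniteDimensional F W] in
/-- `φ^* φ` is a Higgs field -/
theorem kmor_adj (oN : OrthS κ N b) (oM : OrthS (fun _ => 0) M q) (mφ : Mor N M φ)
    {φs : W →ₗ[F] E} (hs : ∀ w e, b (φs w) e = q w (φ e)) : KMor κ N N (φs ∘ₗ φ) := by
  intro p a x hx
  rw [oN.dual]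
  intro c y hy
  have h1 := (oM.dual p a (φ x)).1 (mφ p a x hx) c (φ y) (mφ p c y hy)
  rw [LinearMap.comp_apply, hs, show a - κ p + c + κ p = a + c + 0 by ring]
  exact h1

/-- **`φ φ^* ≠ 0`** from the alternative -/
theorem phiphi_of_alt (oN : OrthS κ N b) (oM : OrthS (fun _ => 0) M q)
    (nil : ∀ ε : F, (ε = 1 ∨ ε = -1) → ∀ Θ ∈ adj b ε, KMor κ N N Θ → IsNilpotent Θ → Θ = 0)
    (mφ : Mor N M φ) (alt : Alt κ N b q φ) (φs : W →ₗ[F] E)
    (hs : ∀ w e, b (φs w) e = q w (φ e)) : φ ∘ₗ φs ≠ 0 := by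
  intro h0
  have h0' : ∀ w, φ (φs w) = 0 := fun w => LinearMap.congr_fun h0 w
  rcases alt with h1 | ⟨h, hadj, hk, hker, hli⟩
  · refine h1 φs hs (nil 1 (Or.inl rfl) _ ?_ (kmor_adj oN oM mφ hs) ?_)
    · intro x y
      rw [LinearMap.comp_apply, hs, one_mul, LinearMap.comp_apply, oN.symm x, hs, oM.symm]
    · refine ⟨2, ?_⟩
      rw [pow_two]
      apply LinearMap.ext
      intro x
      show φs (φ (φs (φ x))) = 0
      rw [h0', map_zero]
  · refine hli.ne_zero 0 (nil (-1) (Or.inr rfl) (h 0) (hadj 0) (hk 0) ⟨2, ?_⟩)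
    rw [pow_two]
    apply LinearMap.ext
    intro x
    rw [Module.End.mul_apply, LinearMap.zero_apply]
    -- `h x` is orthogonal to `ker φ`
    have h3 : ∀ w, φ w = 0 → b (h 0 x) w = 0 := by
      intro w hw
      rw [hadj 0 x w, hker 0 w hw, map_zero, mul_zero]
    -- hence it lies in the image of `φ^*`
    have h4 : h 0 x ∈ LinearMap.range φs := by
      have hrefl : b.IsRefl := fun x y h => by rw [oN.symm]; exact h
      have hnd : b.Nondegenerate := by
        refine ⟨fun x hx => oN.nd x hx, fun x hx => oN.nd x fun y => ?_⟩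
        rw [oN.symm]
        exact hx y
      rw [← LinearMap.BilinForm.orthogonal_orthogonal (B := b) hnd hrefl (LinearMap.range φs),
        LinearMap.BilinForm.mem_orthogonal_iff]
      intro v hv
      rw [LinearMap.BilinForm.mem_orthogonal_iff] at hv
      show b v (h 0 x) = 0
      rw [oN.symm]
      refine h3 v (oM.nd _ fun w => ?_)
      have h5 : b (φs w) v = 0 := hv (φs w) ⟨w, rfl⟩
      rw [oM.symm, ← hs, h5]
    obtain ⟨w, hw⟩ := h4
    rw [← hw]
    exact hker 0 _ (h0' w)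

omit [IsScalarTower k F E] [FiniteDimensional F E] [IsScalarTower k F W]
  [FiniteDimensional F W] [Module k E] [Module k W] in
/-- the same in the form `(ker φ)^⊥` is not isotropic -/
theorem hpp_of_phiphi (hq : ∀ w, (∀ w', q w' w = 0) → w = 0) {φs : W →ₗ[F] E}
    (hs : ∀ w e, b (φs w) e = q w (φ e)) (h : φ ∘ₗ φs ≠ 0) :
    ∃ u v, (∀ w, φ w = 0 → b u w = 0) ∧ (∀ w, φ w = 0 → b v w = 0) ∧ b u v ≠ 0 := by
  by_contra hno
  push Not at hno
  apply h
  apply LinearMap.ext
  intro w
  apply hq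
  intro w'
  rw [LinearMap.comp_apply, ← hs]
  exact hno _ _ (fun w0 h0 => by rw [hs, h0, map_zero]) (fun w0 h0 => by rw [hs, h0, map_zero])

omit [Module k E] [IsScalarTower k F E] [Module k W] [IsScalarTower k F W]
  [FiniteDimensional F W] in
/-- the adjoint of a map between nondegenerate spaces exists -/
theorem exists_phis (hnd : ∀ x, (∀ y, b x y = 0) → x = 0) :
    ∃ φs : W →ₗ[F] E, ∀ w e, b (φs w) e = q w (φ e) := by
  have hinj : Function.Injective b := by
    rw [injective_iff_map_eq_zero]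
    intro x hx
    exact hnd x fun y => by rw [hx, LinearMap.zero_apply]
  let e : E ≃ₗ[F] Module.Dual F E := LinearEquiv.ofInjectiveOfFinrankEq b hinj
    (Subspace.dual_finrank_eq (K := F) (V := E)).symm
  have he : ∀ x, e x = b x := fun x => rfl
  refine ⟨e.symm.toLinearMap ∘ₗ (φ.dualMap ∘ₗ q), fun w x => ?_⟩
  have h1 : b (e.symm (φ.dualMap (q w))) = φ.dualMap (q w) := by
    rw [← he, LinearEquiv.apply_symm_apply]
  show b (e.symm (φ.dualMap (q w))) x = _
  rw [h1]
  rfl

end Vale.Agent.P182.H250
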