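import Vale.Agent.P182.H250.Poly

/-!
# Kernels of polynomial families
-/

namespace Vale.Agent.P182.H250

open Module Polynomial Filter

section mat

variable {L : Type*} [Field L] {m n : Type*} [Fintype m] [Fintype n] [DecidableEq n]

/-- a matrix of polynomials which is singular at infinitely many points has a kernel -/
theorem exists_ker_mat [DecidableEq m] (A : Matrix m n L[X])
    (hk : ∃ᶠ τ in cofinite, ∃ c : n → L, c ≠ 0 ∧ (A.map (eval τ)).mulVec c = 0) :
    ∃ w : n → L[X], w ≠ 0 ∧ A.mulVec w = 0 := by
  classical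
  by_contra hno
  push Not at hno
  have hinj : ∀ w : n → L[X], A.mulVec w = 0 → w = 0 := fun w hw => by
    by_contra h
    exact hno w h hw
  let K := FractionRing L[X]
  let A' : Matrix m n K := A.map (algebraMap L[X] K)
  have hamap : Function.Injective (algebraMap L[X] K) := IsFractionRing.injective L[X] K
  have h1 : LinearMap.ker (Matrix.toLin' A') = ⊥ := by
    rw [LinearMap.ker_eq_bot']
    intro w' hw'
    rw [Matrix.toLin'_apply] at hw'
    obtain ⟨b, hb⟩ := IsLocalization.exist_integer_multiples (nonZeroDivisors L[X])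
      (Finset.univ : Finset n) w'
    choose w hw using fun i => hb i (Finset.mem_univ i)
    have h2 : A.mulVec w = 0 := by
      funext i
      apply hamap
      rw [Pi.zero_apply, map_zero, Matrix.mulVec, dotProduct, map_sum]
      have h3 : ∀ j, algebraMap L[X] K (A i j * w j) =
          algebraMap L[X] K (b : L[X]) * (A' i j * w' j) := by
        intro j
        rw [map_mul, hw j, Algebra.smul_def]
        show algebraMap L[X] K (A i j) * (algebraMap L[X] K (b : L[X]) * w' j) =
          algebraMap L[X] K (b : L[X]) * (algebraMap L[X] K (A i j) * w' j)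
        ring
      simp_rw [h3]
      rw [← Finset.mul_sum]
      have h4 := congrFun hw' i
      rw [Matrix.mulVec, dotProduct, Pi.zero_apply] at h4
      rw [h4, mul_zero]
    have h3 := hinj w h2
    have hb0 : algebraMap L[X] K (b : L[X]) ≠ 0 := by
      rw [Ne, map_eq_zero_iff _ hamap]
      exact nonZeroDivisors.ne_zero b.2
    funext i
    have h4 := hw i
    rw [h3, Pi.zero_apply, map_zero, Algebra.smul_def] at h4
    exact (mul_eq_zero.mp h4.symm).resolve_left hb0
  obtain ⟨R, hR⟩ := (Matrix.toLin' A').exists_leftInverse_of_injective h1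
  let B' : Matrix n m K := LinearMap.toMatrix' R
  have hBA : B' * A' = 1 := by
    have := congrArg LinearMap.toMatrix' hR
    rw [LinearMap.toMatrix'_comp, LinearMap.toMatrix'_toLin', LinearMap.toMatrix'_id] at this
    exact this
  obtain ⟨b, hb⟩ := IsLocalization.exist_integer_multiples (nonZeroDivisors L[X])
    (Finset.univ : Finset (n × m)) (fun ij => B' ij.1 ij.2)
  choose B0 hB0 using fun ij => hb ij (Finset.mem_univ ij)
  let B : Matrix n m L[X] := Matrix.of fun i j => B0 (i, j)
  have hB : ∀ i j, algebraMap L[X] K (B i j) = algebraMap L[X] K (b : L[X]) * B' i j := by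
    intro i j
    have := hB0 (i, j)
    rw [Algebra.smul_def] at this
    exact this
  have hBA2 : B * A = (b : L[X]) • (1 : Matrix n n L[X]) := by
    ext1 i j
    apply hamap
    have h5 := congrFun (congrFun hBA i) j
    rw [Matrix.mul_apply] at h5
    rw [Matrix.mul_apply, map_sum, Matrix.smul_apply, smul_eq_mul, map_mul]
    have h6 : algebraMap L[X] K ((1 : Matrix n n L[X]) i j) = (1 : Matrix n n K) i j := by
      rw [Matrix.one_apply, Matrix.one_apply]
      split_ifs
      · exact map_one _
      · exact map_zero _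
    rw [h6, ← h5, Finset.mul_sum]
    refine Finset.sum_congr rfl fun k _ => ?_
    rw [map_mul, hB, mul_assoc]
    rfl
  have hb0 : (b : L[X]) ≠ 0 := nonZeroDivisors.ne_zero b.2
  refine hk ?_
  have h7 : ∀ᶠ τ in cofinite, (b : L[X]).eval τ ≠ 0 := by
    rw [eventually_cofinite]
    refine ((b : L[X]).roots.toFinset.finite_toSet).subset ?_
    intro τ hτ
    rw [Finset.mem_coe, Multiset.mem_toFinset, mem_roots hb0, IsRoot]
    exact not_not.mp hτ
  filter_upwards [h7] with τ hτ
  rintro ⟨c, hc0, hc⟩
  apply hc0
  have h8 : (B.map (eval τ)).mulVec ((A.map (eval τ)).mulVec c) = (b : L[X]).eval τ • c := by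
    rw [Matrix.mulVec_mulVec]
    have h9 : B.map (eval τ) * A.map (eval τ) = ((b : L[X]).eval τ) • (1 : Matrix n n L) := by
      have h10 : (B * A).map (evalRingHom τ) = B.map (evalRingHom τ) * A.map (evalRingHom τ) :=
        Matrix.map_mul
      have h11 : B.map (eval τ) * A.map (eval τ) = (B * A).map (evalRingHom τ) := h10.symm
      rw [h11, hBA2]
      ext i j
      rw [Matrix.map_apply, Matrix.smul_apply, Matrix.smul_apply, coe_evalRingHom, smul_eq_mul,
        eval_mul, smul_eq_mul, Matrix.one_apply, Matrix.one_apply]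
      split_ifs
      · rw [eval_one]
      · rw [eval_zero]
    rw [h9, Matrix.smul_mulVec, Matrix.one_mulVec]
  rw [hc, Matrix.mulVec_zero] at h8
  exact (smul_eq_zero.mp h8.symm).resolve_left hτ

omit [DecidableEq n] [Fintype m] in
/-- dividing by `X` -/
theorem exists_primitive (A : Matrix m n L[X]) (h : ∃ w : n → L[X], w ≠ 0 ∧ A.mulVec w = 0) :
    ∃ w : n → L[X], (∃ i, (w i).eval 0 ≠ 0) ∧ A.mulVec w = 0 := by
  classical
  let S : Set ℕ := {d | ∃ w : n → L[X], w ≠ 0 ∧ A.mulVec w = 0 ∧ ∑ i, (w i).natDegree = d}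
  have hS : S.Nonempty := by
    obtain ⟨w, h1, h2⟩ := h
    exact ⟨_, w, h1, h2, rfl⟩
  obtain ⟨w, h1, h2, h3⟩ := Nat.sInf_mem hS
  refine ⟨w, ?_, h2⟩
  by_contra hno
  push Not at hno
  have h4 : ∀ i, ∃ u : L[X], w i = X * u := fun i => by
    have := hno i
    rw [← coeff_zero_eq_eval_zero] at this
    exact X_dvd_iff.mpr this
  choose u hu using h4
  have hu0 : u ≠ 0 := by
    rintro rfl
    refine h1 (funext fun i => ?_)
    rw [hu]
    exact mul_zero X
  have hAu : A.mulVec u = 0 := by
    have h5 : w = (X : L[X]) • u := funext fun i => hu i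
    rw [h5, Matrix.mulVec_smul] at h2
    exact (smul_eq_zero.mp h2).resolve_left X_ne_zero
  obtain ⟨i, hi⟩ := Function.ne_iff.mp hu0
  have h6 : ∑ i, (u i).natDegree < ∑ i, (w i).natDegree := by
    refine Finset.sum_lt_sum (fun j _ => ?_) ⟨i, Finset.mem_univ i, ?_⟩
    · by_cases h7 : u j = 0
      · rw [hu j, h7, mul_zero]
      · rw [hu j, natDegree_X_mul h7]
        omega
    · have h7 : u i ≠ 0 := hi
      rw [hu i, natDegree_X_mul h7]
      omega
  have h7 := Nat.sInf_le (s := S) ⟨u, hu0, hAu, rfl⟩
  omega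

end mat

section fam

variable {L : Type*} [Field L] {U U' : Type*} [AddCommGroup U] [Module L U] [AddCommGroup U']
  [Module L U'] [FiniteDimensional L U] [FiniteDimensional L U']

/-- **a family of linear maps with infinitely many singular members has a kernel vector** -/
theorem exists_ker_family {T : L → (U →ₗ[L] U')} (h : IsPoly T)
    (hk : ∃ᶠ τ in cofinite, LinearMap.ker (T τ) ≠ ⊥) :
    ∃ v : L → U, IsPoly v ∧ v 0 ≠ 0 ∧ ∀ τ, T τ (v τ) = 0 := by
  classical
  let b := finBasis L U
  let b' := finBasis L U'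
  have h1 : ∀ i j, ∃ p : L[X], ∀ τ, b'.repr (T τ (b j)) i = p.eval τ := fun i j =>
    ((h.apply (IsPoly.const (b j))).map (b'.coord i)).exists_poly
  choose p hp using h1
  let A : Matrix (Fin (finrank L U')) (Fin (finrank L U)) L[X] := Matrix.of p
  have hA : ∀ τ u, (A.map (eval τ)).mulVec (b.repr u) = b'.repr (T τ u) := by
    intro τ u
    funext i
    conv_rhs => rw [← b.sum_repr u, map_sum, map_sum]
    rw [Matrix.mulVec, dotProduct, Finsupp.finsetSum_apply]
    refine Finset.sum_congr rfl fun j _ => ?_
    rw [map_smul, map_smul, Finsupp.smul_apply, hp, smul_eq_mul, mul_comm]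
    rfl
  obtain ⟨w, ⟨i, hi⟩, hw⟩ := exists_primitive A (exists_ker_mat A (hk.mono fun τ hτ => by
    obtain ⟨u, hu, hu0⟩ := Submodule.exists_mem_ne_zero_of_ne_bot hτ
    refine ⟨b.repr u, fun h0 => hu0 ?_, ?_⟩
    · apply b.repr.injective
      rw [map_zero]
      exact DFunLike.coe_injective h0
    · rw [hA, LinearMap.mem_ker.mp hu, map_zero]
      rfl))
  refine ⟨fun τ => ∑ j, (w j).eval τ • b j, ?_, ?_, ?_⟩
  · exact IsPoly.sum _ fun j _ => (IsPoly.of_poly (w j)).smul (IsPoly.const (b j))
  · intro h0
    apply hi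
    have h2 := congrArg (fun z => b.repr z i) h0
    beta_reduce at h2
    rw [map_zero, Finsupp.zero_apply, map_sum, Finsupp.finsetSum_apply,
      Finset.sum_eq_single i] at h2
    · rwa [map_smul, Basis.repr_self, Finsupp.smul_apply, Finsupp.single_eq_same, smul_eq_mul,
        mul_one] at h2
    · intro j _ hj
      rw [map_smul, Basis.repr_self, Finsupp.smul_apply, Finsupp.single_eq_of_ne (Ne.symm hj),
        smul_zero]
    · intro h; exact absurd (Finset.mem_univ _) h
  · intro τ
    apply b'.repr.injective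
    rw [map_zero]
    apply DFunLike.coe_injective
    rw [← hA]
    have h3 : (b.repr (∑ j, (w j).eval τ • b j) : Fin (finrank L U) → L) =
        fun j => (w j).eval τ := by
      funext j
      have h4 := b.repr_sum_self (fun j => (w j).eval τ)
      exact congrFun h4 j
    rw [h3]
    have h5 := congrArg (fun z : Fin (finrank L U') → L[X] => fun i => (z i).eval τ) hw
    funext i
    have h6 := congrFun h5 i
    beta_reduce at h6
    rw [Matrix.mulVec, dotProduct, eval_finsetSum] at h6
    simp only [eval_mul, Pi.zero_apply, eval_zero] at h6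
    rw [Matrix.mulVec, dotProduct, Finsupp.coe_zero, Pi.zero_apply]
    exact h6

end fam

end Vale.Agent.P182.H250
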