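import Vale.Agent.P182.H578.N1

/-!
# N4: a versal self-dual bundle has no nilpotent skew Higgs field
-/

namespace Vale.Agent.P182.H250

open LinearMap Submodule Module Vale.Agent.P182.H430 Vale.Agent.P182.H578

universe u

/-- a filtration adapted to a nilpotent skew operator -/
structure SkFil {F : Type*} [Field F] {E : Type*} [AddCommGroup E] [Module F E]
    (B : LinearMap.BilinForm F E) (Y : E →ₗ[F] E) (fil : ℤ → Submodule F E) : Prop where
  anti : Antitone fil
  bdd : ∃ M : ℕ, fil (-M) = ⊤ ∧ fil (M + 1) = ⊥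
  deg : Y ∈ Ef fil 1
  conn : ∀ δ : Derivation ℤ F F, ∃ D : E → E, IsConn δ D ∧ IsMetric B δ D ∧
    ∀ i, ∀ x ∈ fil i, D x ∈ fil i

section step

variable {F : Type*} [Field F] {E : Type u} [AddCommGroup E] [Module F E]
  {B : LinearMap.BilinForm F E} {Y : E →ₗ[F] E} {u v : E}

/-- the complement of a hyperbolic plane -/
def hc (B : LinearMap.BilinForm F E) (u v : E) : Submodule F E :=
  LinearMap.ker (B.flip v) ⊓ LinearMap.ker (B.flip u)

theorem mem_hc {x : E} : x ∈ hc B u v ↔ B x v = 0 ∧ B x u = 0 := by
  rw [hc, Submodule.mem_inf, LinearMap.mem_ker, LinearMap.mem_ker]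
  rfl

/-- the hyperbolic plane -/
structure Hyp (B : LinearMap.BilinForm F E) (u v : E) : Prop where
  symm : ∀ x y, B x y = B y x
  uu : B u u = 0
  vv : B v v = 0
  uv : B u v = 1

/-- the projection to the complement -/
def hp (H : Hyp B u v) : E →ₗ[F] hc B u v :=
  LinearMap.codRestrict _ (LinearMap.id - ((B.flip u).smulRight v + (B.flip v).smulRight u))
    (fun x => by
      have h1 : B v u = 1 := by rw [H.symm, H.uv]
      rw [mem_hc]
      have h3 : ∀ y, (B.flip u) y = B y u := fun _ => rfl
      have h4 : ∀ y, (B.flip v) y = B y v := fun _ => rfl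
      simp only [LinearMap.sub_apply, LinearMap.id_apply, LinearMap.add_apply,
        LinearMap.smulRight_apply, h3, h4, map_sub, map_add, map_smul,
        LinearMap.smul_apply, smul_eq_mul, H.uu, H.vv, H.uv, h1]
      constructor <;> ring)

theorem hp_coe (H : Hyp B u v) (x : E) : (hp H x : E) = x - (B x u • v + B x v • u) := rfl

theorem hp_decomp (H : Hyp B u v) (x : E) : x = hp H x + (B x u • v + B x v • u) := by
  rw [hp_coe, sub_add_cancel]

theorem B_hp (H : Hyp B u v) {z : E} (hz : z ∈ hc B u v) (x : E) : B z (hp H x) = B z x := by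
  rw [hp_coe, map_sub, map_add, map_smul, map_smul, (mem_hc.1 hz).1, (mem_hc.1 hz).2, smul_zero,
    smul_zero, add_zero, sub_zero]

theorem hp_id (H : Hyp B u v) (z : hc B u v) : hp H (z : E) = z := by
  apply Subtype.ext
  rw [hp_coe, (mem_hc.1 z.2).1, (mem_hc.1 z.2).2, zero_smul, zero_smul, add_zero, sub_zero]

theorem form_decomp (H : Hyp B u v) (x y : E) :
    B x y = B (hp H x) (hp H y) + (B x u * B y v + B x v * B y u) := by
  conv_lhs => rw [hp_decomp H y, map_add, map_add, map_smul, map_smul]
  rw [H.symm (hp H x : E), H.symm x (hp H y : E), B_hp H (hp H y).2, smul_eq_mul, smul_eq_mul]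
  ring

variable (hY : ∀ x y, B (Y x) y = - B x (Y y)) (hv : Y v = 0)

include hY hv in
theorem B_Y_v (x : E) : B (Y x) v = 0 := by
  rw [hY, hv, map_zero, neg_zero]

include hY hv in
theorem compr_pow (H : Hyp B u v) (n : ℕ) (z : hc B u v) :
    (((hp H) ∘ₗ Y ∘ₗ (hc B u v).subtype) ^ n) z = hp H ((Y ^ n) (z : E)) := by
  induction n with
  | zero => rw [pow_zero, pow_zero, Module.End.one_apply, Module.End.one_apply, hp_id]
  | succ n ih =>
    rw [pow_succ', Module.End.mul_apply, ih, pow_succ', Module.End.mul_apply]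
    show hp H (Y (hp H ((Y ^ n) (z : E)) : E)) = _
    have hb : B ((Y ^ n) (z : E)) v = 0 := by
      rcases n with _ | n
      · rw [pow_zero, Module.End.one_apply]
        exact (mem_hc.1 z.2).1
      · rw [pow_succ', Module.End.mul_apply]
        exact B_Y_v hY hv _
    rw [hp_coe H ((Y ^ n) (z : E)), hb, zero_smul, add_zero, map_sub, map_smul, hv, smul_zero,
      sub_zero]

end step

/-- **existence of the filtration** -/
theorem exists_skFil {F : Type*} [Field F] (h2 : (2 : F) ≠ 0) (n : ℕ) :
    ∀ (E : Type u) [AddCommGroup E] [Module F E] [FiniteDimensional F E]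
      (B : LinearMap.BilinForm F E) (Y : E →ₗ[F] E), finrank F E ≤ n →
      (∀ x y, B x y = B y x) → (∀ x, (∀ y, B x y = 0) → x = 0) →
      (∀ x y, B (Y x) y = - B x (Y y)) → IsNilpotent Y →
      ∃ fil : ℤ → Submodule F E, SkFil B Y fil := by
  induction n with
  | zero =>
    intro E _ _ _ B Y hn hB hnd hY hnil
    have h0 : ∀ x : E, x = 0 := by
      have := finrank_zero_iff.1 (Nat.le_zero.1 hn)
      exact fun x => Subsingleton.elim _ _
    refine ⟨fun _ => ⊤, fun _ _ _ => le_rfl, ⟨0, rfl, ?_⟩, fun _ _ _ => trivial, fun δ =>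
      ⟨fun _ => 0, ⟨fun _ _ => by rw [add_zero], fun _ _ => (h0 _).trans (h0 _).symm⟩, fun x y => ?_,
        fun _ _ _ => trivial⟩⟩
    · rw [eq_bot_iff]
      intro x _
      exact (Submodule.mem_bot F).2 (h0 x)
    · rw [h0 x]
      simp
  | succ n ih =>
    intro E _ _ _ B Y hn hB hnd hY hnil
    by_cases hY0 : Y = 0
    · obtain ⟨fil, J⟩ := exists_JM (Θ := (0 : E →ₗ[F] E)) h2 hB hnd
        (fun x y => by rw [LinearMap.zero_apply, LinearMap.zero_apply, map_zero, map_zero,
          LinearMap.zero_apply]) (IsNilpotent.zero)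
      refine ⟨fun i => if i ≤ 0 then ⊤ else ⊥, ?_, ⟨0, ?_, ?_⟩, ?_, ?_⟩
      · intro i j hij
        by_cases hj : j ≤ 0
        · have hi : i ≤ 0 := hij.trans hj
          simp only [hj, hi, if_true, le_refl]
        · simp only [hj, if_false, bot_le]
      · simp
      · simp
      · intro i x _
        rw [hY0, LinearMap.zero_apply]
        exact Submodule.zero_mem _
      · intro δ
        obtain ⟨D, hD, hm, -, -⟩ := J.conn δ
        refine ⟨D, hD, hm, fun i x hx => ?_⟩
        by_cases hi : i ≤ 0
        · simp only [hi, if_true]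
          trivial
        · simp only [hi, if_false, Submodule.mem_bot] at hx ⊢
          have h3 := hD.2 0 (0 : E)
          rw [zero_smul, zero_smul, map_zero, zero_smul, add_zero] at h3
          rw [hx, h3]
    -- the isotropic vector
    obtain ⟨v, hv0, hv, w, hw⟩ : ∃ v, v ≠ 0 ∧ Y v = 0 ∧ ∃ w, Y w = v := by
      have hex : ∃ m, Y ^ m = 0 := hnil
      classical
      set m := Nat.find hex with hm
      have hm1 : Y ^ m = 0 := Nat.find_spec hex
      have hm0 : m ≠ 0 := by
        intro h
        rw [h, pow_zero] at hm1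
        apply hY0
        have h3 : Y * 1 = 0 := by rw [hm1, mul_zero]
        rwa [mul_one] at h3
      obtain ⟨m', hm'⟩ := Nat.exists_eq_succ_of_ne_zero hm0
      have hm2 : Y ^ m' ≠ 0 := Nat.find_min hex (by omega)
      have hm3 : m' ≠ 0 := by
        intro h
        rw [hm', h] at hm1
        exact hY0 (by simpa using hm1)
      obtain ⟨m'', hm''⟩ := Nat.exists_eq_succ_of_ne_zero hm3
      obtain ⟨z, hz⟩ : ∃ z, (Y ^ m') z ≠ 0 := by
        by_contra h
        push Not at h
        exact hm2 (LinearMap.ext h)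
      refine ⟨(Y ^ m') z, hz, ?_, (Y ^ m'') z, ?_⟩
      · rw [← Module.End.mul_apply, ← pow_succ', ← Nat.succ_eq_add_one, ← hm', hm1,
          LinearMap.zero_apply]
      · rw [← Module.End.mul_apply, ← pow_succ', ← Nat.succ_eq_add_one, ← hm'']
    have hvv : B v v = 0 := by
      conv_lhs => rw [← hw]
      exact B_Y_v hY hv w |> fun h => by rw [hw] at h ⊢; exact h
    obtain ⟨u, H⟩ : ∃ u, Hyp B u v := by
      obtain ⟨u0, hu0⟩ : ∃ u0, B v u0 ≠ 0 := by
        by_contra h
        push Not at h
        exact hv0 (hnd v h)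
      obtain ⟨u1, hu1⟩ : ∃ z, z = (B v u0)⁻¹ • u0 := ⟨_, rfl⟩
      have h1 : B u1 v = 1 := by
        rw [hu1, map_smul, LinearMap.smul_apply, smul_eq_mul, hB u0 v, inv_mul_cancel₀ hu0]
      have h3 : B v u1 = 1 := by rw [hB, h1]
      refine ⟨u1 - (B u1 u1 / 2) • v, hB, ?_, hvv, ?_⟩
      · simp only [map_sub, LinearMap.sub_apply, map_smul, LinearMap.smul_apply, smul_eq_mul,
          h1, h3, hvv]
        field_simp
        ring
      · rw [map_sub B, LinearMap.sub_apply, map_smul B, LinearMap.smul_apply, hvv, smul_zero,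
          sub_zero, h1]
    -- the complement
    set E' := hc B u v with hE'
    let B' : LinearMap.BilinForm F E' := B.compl₁₂ E'.subtype E'.subtype
    have hB' : ∀ x y : E', B' x y = B x y := fun _ _ => rfl
    let Y' : E' →ₗ[F] E' := (hp H) ∘ₗ Y ∘ₗ E'.subtype
    have hY' : ∀ z : E', Y' z = hp H (Y (z : E)) := fun _ => rfl
    have hlt : finrank F E' < finrank F E := by
      refine Submodule.finrank_lt ?_
      intro h
      have h3 : u ∈ E' := by rw [h]; trivial
      have h4 := (mem_hc.1 h3).1
      rw [H.uv] at h4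
      exact one_ne_zero h4
    obtain ⟨fil', S⟩ := ih E' B' Y' (by omega) (fun x y => hB _ _)
      (fun x hx => by
        apply Subtype.ext
        apply hnd
        intro y
        rw [← B_hp H x.2 y]
        exact hx (hp H y))
      (fun x y => by
        rw [hB', hB', hY', hY', B_hp H x.2, hB, B_hp H y.2, hB, hY])
      (by
        obtain ⟨m, hm⟩ := hnil
        refine ⟨m, LinearMap.ext fun z => ?_⟩
        rw [compr_pow hY hv H m z, hm, LinearMap.zero_apply, map_zero, LinearMap.zero_apply])
    obtain ⟨M', hM1, hM2⟩ := S.bdd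
    have htop : ∀ i : ℤ, i ≤ -M' → fil' i = ⊤ := fun i hi => by
      rw [eq_top_iff, ← hM1]
      exact S.anti hi
    have hbot : ∀ i : ℤ, (M' : ℤ) + 1 ≤ i → fil' i = ⊥ := fun i hi => by
      rw [eq_bot_iff, ← hM2]
      exact S.anti hi
    let fil : ℤ → Submodule F E := fun i =>
      { carrier := {x | (-((M' : ℤ) + 1) < i → B x v = 0) ∧ hp H x ∈ fil' i ∧
          ((M' : ℤ) + 1 < i → B x u = 0)}
        zero_mem' := ⟨fun _ => by rw [map_zero, LinearMap.zero_apply], by
          rw [map_zero]; exact Submodule.zero_mem _, fun _ => by rw [map_zero, LinearMap.zero_apply]⟩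
        add_mem' := fun {x y} hx hy => ⟨fun h => by
          rw [map_add, LinearMap.add_apply, hx.1 h, hy.1 h, add_zero], by
          rw [map_add]; exact Submodule.add_mem _ hx.2.1 hy.2.1, fun h => by
          rw [map_add, LinearMap.add_apply, hx.2.2 h, hy.2.2 h, add_zero]⟩
        smul_mem' := fun c {x} hx => ⟨fun h => by
          rw [map_smul, LinearMap.smul_apply, hx.1 h, smul_zero], by
          rw [map_smul]; exact Submodule.smul_mem _ _ hx.2.1, fun h => by
          rw [map_smul, LinearMap.smul_apply, hx.2.2 h, smul_zero]⟩ }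
    have hfil : ∀ i x, x ∈ fil i ↔ (-((M' : ℤ) + 1) < i → B x v = 0) ∧ hp H x ∈ fil' i ∧
        ((M' : ℤ) + 1 < i → B x u = 0) := fun _ _ => Iff.rfl
    refine ⟨fil, ?_, ⟨M' + 1, ?_, ?_⟩, ?_, ?_⟩
    · intro i j hij x hx
      rw [hfil] at hx ⊢
      exact ⟨fun h => hx.1 (by omega), S.anti hij hx.2.1, fun h => hx.2.2 (by omega)⟩
    · rw [eq_top_iff]
      intro x _
      rw [hfil]
      refine ⟨fun h => by push_cast at h; omega, ?_, fun h => by push_cast at h; omega⟩
      rw [htop _ (by push_cast; omega)]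
      trivial
    · rw [eq_bot_iff]
      intro x hx
      rw [hfil] at hx
      obtain ⟨h1, h3, h4⟩ := hx
      rw [hbot _ (by push_cast; omega), Submodule.mem_bot] at h3
      rw [Submodule.mem_bot, hp_decomp H x, h3, h1 (by push_cast; omega),
        h4 (by push_cast; omega), zero_smul, zero_smul, add_zero, Submodule.coe_zero, add_zero]
    · intro i x hx
      rw [hfil] at hx ⊢
      obtain ⟨h1, h3, h4⟩ := hx
      have hYx : hp H (Y x) = Y' (hp H x) + B x v • hp H (Y u) := by
        rw [hY']
        conv_lhs => rw [hp_decomp H x]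
        rw [map_add Y, map_add Y, map_smul Y, map_smul Y, hv, smul_zero, zero_add, map_add, map_smul]
      refine ⟨fun _ => B_Y_v hY hv x, ?_, fun h => ?_⟩
      · rw [hYx]
        refine Submodule.add_mem _ (S.deg _ _ h3) ?_
        by_cases hi : -((M' : ℤ) + 1) < i
        · rw [h1 hi, zero_smul]
          exact Submodule.zero_mem _
        · rw [htop (i + 1) (by omega)]
          trivial
      · have hb := h1 (by omega)
        rw [hbot i (by omega), Submodule.mem_bot] at h3
        have h5 : Y x = 0 := by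
          rw [hp_decomp H x, h3, hb, zero_smul, add_zero, Submodule.coe_zero, zero_add, map_smul,
            hv, smul_zero]
        rw [h5, map_zero, LinearMap.zero_apply]
    · intro δ
      obtain ⟨D, hD, hm, hf⟩ := S.conn δ
      have hDz : ∀ x : E, B (D (hp H x) : E) v = 0 := fun x => (mem_hc.1 (D (hp H x)).2).1
      have hDu : ∀ x : E, B (D (hp H x) : E) u = 0 := fun x => (mem_hc.1 (D (hp H x)).2).2
      have hvu : B v u = 1 := by rw [hB, H.uv]
      let D1 : E → E := fun x => D (hp H x) + (δ (B x u) • v + δ (B x v) • u)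
      have hD1 : ∀ x, D1 x = D (hp H x) + (δ (B x u) • v + δ (B x v) • u) := fun _ => rfl
      have hBv : ∀ x, B (D1 x) v = δ (B x v) := fun x => by
        rw [hD1, map_add, LinearMap.add_apply, hDz, zero_add, map_add, LinearMap.add_apply,
          map_smul, map_smul, LinearMap.smul_apply, LinearMap.smul_apply, H.vv, H.uv, smul_zero,
          zero_add, smul_eq_mul, mul_one]
      have hBu : ∀ x, B (D1 x) u = δ (B x u) := fun x => by
        rw [hD1, map_add, LinearMap.add_apply, hDu, zero_add, map_add, LinearMap.add_apply,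
          map_smul, map_smul, LinearMap.smul_apply, LinearMap.smul_apply, H.uu, hvu, smul_zero,
          add_zero, smul_eq_mul, mul_one]
      have hpD : ∀ x, hp H (D1 x) = D (hp H x) := fun x => by
        apply Subtype.ext
        rw [hp_coe, hBv, hBu, hD1]
        abel
      refine ⟨D1, ⟨fun x y => ?_, fun f x => ?_⟩, fun x y => ?_, fun i x hx => ?_⟩
      · rw [hD1, hD1, hD1, map_add (hp H), hD.1, Submodule.coe_add, map_add B,
          LinearMap.add_apply, LinearMap.add_apply, map_add δ, map_add δ, add_smul, add_smul]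
        abel
      · have h5 : δ f • x = δ f • (hp H x : E) + ((δ f * B x u) • v + (δ f * B x v) • u) := by
          conv_lhs => rw [hp_decomp H x]
          rw [smul_add, smul_add, smul_smul, smul_smul]
        rw [hD1, hD1, h5, map_smul, hD.2, map_smul, LinearMap.smul_apply, LinearMap.smul_apply,
          Submodule.coe_add, Submodule.coe_smul, Submodule.coe_smul, smul_eq_mul, smul_eq_mul,
          Derivation.leibniz, Derivation.leibniz, smul_add, smul_add, smul_smul, smul_smul,
          smul_eq_mul, smul_eq_mul, smul_eq_mul, smul_eq_mul, mul_comm (B x u) (δ f),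
          mul_comm (B x v) (δ f), add_smul, add_smul]
        abel
      · rw [form_decomp H (D1 x) y, form_decomp H x (D1 y), form_decomp H x y, hpD, hpD, hBv, hBv,
          hBu, hBu, map_add, map_add, Derivation.leibniz, Derivation.leibniz]
        have h5 := hm (hp H x) (hp H y)
        rw [hB', hB', hB'] at h5
        rw [h5]
        simp only [smul_eq_mul]
        ring
      · rw [hfil] at hx ⊢
        refine ⟨fun h => ?_, ?_, fun h => ?_⟩
        · rw [hBv, hx.1 h, map_zero]
        · rw [hpD]
          exact hf _ _ hx.2.1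
        · rw [hBu, hx.2.2 h, map_zero]

section main

variable {k F P : Type*} [Field k] [Field F] [Algebra k F] {C : Curve k F P}
  {E : Type u} [AddCommGroup E] [Module F E] [Module k E] [IsScalarTower k F E]
  [FiniteDimensional F E] {N : Bun C E} {B : LinearMap.BilinForm F E} {κ : P → ℤ}

/-- **N4**: a versal self-dual bundle has no nonzero nilpotent skew Higgs field. -/
theorem no_nilpotent_skew {I : Type*} (h2 : (2 : F) ≠ 0) (hB : ∀ x y, B x y = B y x)
    (hnd : ∀ x, (∀ y, B x y = 0) → x = 0) (V : Vers N B κ I) {Y : E →ₗ[F] E}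
    (hY : ∀ x y, B (Y x) y = - B x (Y y)) (hYp : ∀ p, Y ∈ ((N.hom N).ch p).L (-κ p))
    (hn : IsNilpotent Y) : Y = 0 := by
  obtain ⟨fil, S⟩ := exists_skFil h2 _ E B Y le_rfl hB hnd hY hn
  refine V.vers Y (fun x y => by rw [hY, neg_one_mul]) hYp fun i => ?_
  obtain ⟨D0, h0, hm, hf⟩ := S.conn (V.δ i)
  exact ⟨D0, h0, hm, fun p => trace_local S.anti S.bdd (V.conn i p) h0 hf
    (V.comm i p 0 (Or.inl rfl)) S.deg (hYp p)⟩

end main

end Vale.Agent.P182.H250
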