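import Vale.Agent.P182.H430.NMake
import Vale.Agent.P182.H250.N4

/-!
# N4 for the concrete bundle `N`, and the nondegeneracy of `(ker φ)^⊥`
-/

namespace Vale.Agent.P182.H430

open Polynomial Module Matrix

namespace NData

variable {k : Type*} [Field k] {J : Type*} [Fintype J] [DecidableEq J] (X : NData k J)
variable {F : Type*} [Field F] [Algebra k[X] F] [IsFractionRing k[X] F]
  [Algebra k F] [IsScalarTower k k[X] F]

omit [DecidableEq J] in
theorem two_ne_F (F : Type*) [Field F] [Algebra k F] (h2 : (2 : k) ≠ 0) : (2 : F) ≠ 0 := by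
  intro h
  apply h2
  have : algebraMap k F 2 = 0 := by rw [map_ofNat]; exact h
  exact (map_eq_zero_iff _ (algebraMap k F).injective).1 this

section closed

variable [IsAlgClosed k]

/-- **N4 for the concrete bundle** -/
theorem noNilSkew (hdet : IsUnit X.Om'.det) (h2 : (2 : k) ≠ 0) (hΩ : X.VersΩ)
    {Θ : (J → F) →ₗ[F] (J → F)} (hΘ : ∀ x y, X.b F (Θ x) y = - X.b F x (Θ y))
    (hΘp : ∀ p, ∀ a x, x ∈ ((X.N F).ch p).L a → Θ x ∈ ((X.N F).ch p).L (a - X.kap p))
    (hn : IsNilpotent Θ) : Θ = 0 := by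
  refine H250.no_nilpotent_skew (two_ne_F F h2) (X.b_symm F) (X.b_nondeg hdet)
    (X.versN F hdet h2 hΩ) hΘ ?_ hn
  intro p a x hx
  rw [X.tht_two, ← sub_eq_add_neg]
  exact hΘp p a x hx

/-- N4 for the twisted bundle -/
theorem noNilSkew' (hdet : IsUnit X.Om'.det) (h2 : (2 : k) ≠ 0) (hΩ : X.VersΩ)
    {Θ : (J → F) →ₗ[F] (J → F)} (hΘ : ∀ x y, X.b F (Θ x) y = - X.b F x (Θ y))
    (hΘp : ∀ p, Θ ∈ (((X.N' F).hom (X.N' F)).ch p).L (- X.kap p))
    (hn : IsNilpotent Θ) : Θ = 0 :=
  H250.no_nilpotent_skew (two_ne_F F h2) (X.b_symm F) (X.b_nondeg hdet)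
    (X.vers hdet h2 hΩ) hΘ hΘp hn

end closed

/-- the defining property of the operator of a skew form -/
theorem b_thg_skew (hdet : IsUnit X.Om'.det) {g : Matrix J J k} (hg : ∀ l m, g l m = - g m l)
    (x y : J → F) : X.b F (X.thg F g x) y = - gform F g x y := by
  have hM : X.Om' * X.Mi = 1 := Matrix.mul_nonsing_inv _ hdet
  have h1 : ∀ l, X.thg F g x l = ∑ m, X.GG F l m * ∑ j, algebraMap k F (g m j) * x j := by
    intro l
    unfold thg
    rw [Matrix.toLin'_apply, ← Matrix.mulVec_mulVec]
    rfl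
  -- `∑_l GG l m * Bm l i = δ`
  have h2 : ∀ m i, ∑ l, X.GG F l m * X.Bm F l i = if m = i then 1 else 0 := by
    intro m i
    have h3 : ∀ l, X.GG F l m * X.Bm F l i = (X.lin F (X.arm m))⁻¹ * X.lin F (X.arm i) *
        algebraMap k F (X.Om' m l * X.Mi l i) := by
      intro l
      unfold GG Bm
      rw [X.Om'_symm l m, map_mul]
      have := X.lin_ne F (X.arm l)
      field_simp
    simp only [h3]
    rw [← Finset.mul_sum, ← map_sum, ← Matrix.mul_apply, hM]
    by_cases hmi : m = i
    · subst hmi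
      rw [Matrix.one_apply_eq, map_one, if_pos rfl, mul_one, inv_mul_cancel₀ (X.lin_ne F _)]
    · rw [Matrix.one_apply_ne hmi, map_zero, if_neg hmi, mul_zero]
  rw [b_apply, gform_apply]
  simp only [h1]
  have h4 : ∀ l i, (∑ m, X.GG F l m * ∑ j, algebraMap k F (g m j) * x j) * y i * X.Bm F l i =
      ∑ m, (X.GG F l m * X.Bm F l i) * (y i * ∑ j, algebraMap k F (g m j) * x j) := by
    intro l i
    rw [Finset.sum_mul, Finset.sum_mul]
    exact Finset.sum_congr rfl fun m _ => by ring
  simp only [h4]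
  rw [Finset.sum_comm]
  have h5 : ∀ i, ∑ l, ∑ m, (X.GG F l m * X.Bm F l i) *
      (y i * ∑ j, algebraMap k F (g m j) * x j) =
      y i * ∑ j, algebraMap k F (g i j) * x j := by
    intro i
    rw [Finset.sum_comm]
    simp only [← Finset.sum_mul, h2]
    rw [Finset.sum_eq_single i]
    · rw [if_pos rfl, one_mul]
    · intro m _ hm
      rw [if_neg hm, zero_mul]
    · intro h; exact absurd (Finset.mem_univ _) h
  simp only [h5]
  rw [Finset.sum_comm, ← Finset.sum_neg_distrib]
  refine Finset.sum_congr rfl fun i _ => ?_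
  rw [Finset.mul_sum, ← Finset.sum_neg_distrib]
  refine Finset.sum_congr rfl fun j _ => ?_
  rw [hg i j, map_neg]
  ring

omit [DecidableEq J] in
theorem gform_skew {g : Matrix J J k} (hg : ∀ l m, g l m = - g m l) (x y : J → F) :
    gform F g x y = - gform F g y x := by
  rw [gform_apply, gform_apply, Finset.sum_comm, ← Finset.sum_neg_distrib]
  refine Finset.sum_congr rfl fun l _ => ?_
  rw [← Finset.sum_neg_distrib]
  refine Finset.sum_congr rfl fun m _ => ?_
  rw [hg m l, map_neg]
  ring

section closed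

variable [IsAlgClosed k]

/-- integrality of a skew constant form -/
theorem gform_mem_skew {g : Matrix J J k} (hg : ∀ l m, g l m = - g m l)
    (h0 : ∀ l m, X.arm l = X.arm m → g l m = 0)
    (h1 : ∀ l m, X.arm l = X.arm m → X.c l ≤ X.c m → ∑ j, g l j * X.Ω m j = 0)
    (p : Option k) {a c : ℤ} {x y : J → F}
    (hx : x ∈ ((X.N F).ch p).L a) (hy : y ∈ ((X.N F).ch p).L c) :
    gform F g x y ∈ (linePl k F p).M (X.per p) (a + c) := by
  have key : ∀ i j, gform F g (X.gx F i) (X.gx F j) ∈
      (linePl k F p).M (X.per p) (X.gw p i + X.gw p j + 0) := by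
    intro i j
    rw [add_zero]
    obtain ⟨v, hv⟩ := X.gx_cv (F := F) i
    obtain ⟨v', hv'⟩ := X.gx_cv (F := F) j
    rcases p with _ | q
    · rw [hv, hv', gform_cv, gw_none, gw_none]
      exact const_mem' _ _ le_rfl _
    by_cases hm : X.Marked (some q)
    swap
    · rw [hv, hv', gform_cv, gw_unmarked X hm, gw_unmarked X hm]
      exact const_mem' _ _ le_rfl _
    clear hv hv' v v'
    obtain ⟨s, hs⟩ := hm
    obtain rfl : q = X.z s := Option.some_injective _ hs
    have hee : ∀ l m, gform F g (cv F (Pi.single l (1 : k))) (cv F (Pi.single m (1 : k))) =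
        algebraMap k F (g l m) := by
      intro l m
      rw [gform_cv, Finset.sum_eq_single l, Finset.sum_eq_single m]
      · simp
      · intro j _ hj; rw [Pi.single_eq_of_ne hj]; ring
      · intro h; exact absurd (Finset.mem_univ _) h
      · intro j _ hj
        refine Finset.sum_eq_zero fun m _ => ?_
        rw [Pi.single_eq_of_ne hj]; ring
      · intro h; exact absurd (Finset.mem_univ _) h
    have hep : ∀ l m, gform F g (cv F (Pi.single l (1 : k))) (cv F (X.Ω m)) =
        algebraMap k F (∑ j, g l j * X.Ω m j) := by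
      intro l m
      rw [gform_cv, Finset.sum_eq_single l]
      · congr 1
        refine Finset.sum_congr rfl fun j _ => ?_
        rw [Pi.single_eq_same]; ring
      · intro j _ hj
        refine Finset.sum_eq_zero fun m _ => ?_
        rw [Pi.single_eq_of_ne hj]; ring
      · intro h; exact absurd (Finset.mem_univ _) h
    have hB : ∀ l m, X.arm l = s → X.arm m = s →
        gform F g (cv F (Pi.single l (1 : k))) (cv F (X.Ω m)) ∈
          (linePl k F (some (X.z s))).M (X.per (some (X.z s)))
            ((X.n + 1 - X.c l) + (X.c m - X.n)) := by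
      intro l m hl hm
      rw [hep]
      by_cases hlm : X.c l ≤ X.c m
      · rw [h1 l m (hl.trans hm.symm) hlm, map_zero]
        exact Submodule.zero_mem _
      · exact const_mem' _ _ (by omega) _
    rcases X.gen_cases (F := F) s i with ⟨l, hl, hx, hw⟩ | ⟨l, hl, hx, hw⟩ | ⟨v, hx, hw⟩ <;>
      rcases X.gen_cases (F := F) s j with ⟨m, hm, hy, hw'⟩ | ⟨m, hm, hy, hw'⟩ | ⟨v', hy, hw'⟩ <;>
      rw [hx, hy, hw, hw']
    · rw [hee, h0 l m (hl.trans hm.symm), map_zero]
      exact Submodule.zero_mem _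
    · exact hB l m hl hm
    · have := X.hc1 l
      rw [gform_cv]
      exact const_mem' _ _ (by omega) _
    · rw [gform_skew hg]
      exact Submodule.neg_mem _ (Place.M_anti _ (by linarith) (hB m l hm hl))
    · have := X.hcn l
      have := X.hcn m
      rw [gform_cv]
      exact const_mem' _ _ (by omega) _
    · have := X.hcn l
      rw [gform_cv]
      exact const_mem' _ _ (by omega) _
    · have := X.hc1 m
      rw [gform_cv]
      exact const_mem' _ _ (by omega) _
    · have := X.hcn m
      rw [gform_cv]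
      exact const_mem' _ _ (by omega) _
    · rw [gform_cv]
      exact const_mem' _ _ (by omega) _
  have h := (gen_bil (hx := X.hgen) (hx₂ := X.hgen) (Q := linePl k F p) (hp := X.per_pos p)
    (hp₂ := X.per_pos p) (β := gform F g) (d := 0)).2 key a x hx c y hy
  rwa [add_zero] at h

/-- integrality of the operator of a skew constant form -/
theorem thg_mem_skew (hdet : IsUnit X.Om'.det) {g : Matrix J J k} (hg : ∀ l m, g l m = - g m l)
    (h0 : ∀ l m, X.arm l = X.arm m → g l m = 0)
    (h1 : ∀ l m, X.arm l = X.arm m → X.c l ≤ X.c m → ∑ j, g l j * X.Ω m j = 0)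
    (p : Option k) {a : ℤ} {x : J → F} (hx : x ∈ ((X.N F).ch p).L a) :
    X.thg F g x ∈ ((X.N F).ch p).L (a - X.kap p) := by
  rw [X.N_self hdet]
  intro c y hy
  rw [X.b_thg_skew hdet hg]
  exact Submodule.neg_mem _ (Place.M_anti _ (by linarith) (X.gform_mem_skew hg h0 h1 p hx hy))

omit [IsAlgClosed k] in
/-- a matrix with zero operator is zero -/
theorem eq_zero_of_gform {g : Matrix J J k} (h : ∀ x y : J → F, gform F g x y = 0) : g = 0 := by
  ext l m
  have h5 := h (cv F (Pi.single l (1 : k))) (cv F (Pi.single m (1 : k)))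
  rw [gform_cv, Finset.sum_eq_single l, Finset.sum_eq_single m] at h5
  · have h6 := (map_eq_zero_iff _ (algebraMap k F).injective).1 h5
    simpa using h6
  · intro j _ hj; rw [Pi.single_eq_of_ne hj]; ring
  · intro h; exact absurd (Finset.mem_univ _) h
  · intro j _ hj
    refine Finset.sum_eq_zero fun m _ => ?_
    rw [Pi.single_eq_of_ne hj]; ring
  · intro h; exact absurd (Finset.mem_univ _) h

/-- **N4, constants form** -/
theorem N4_const (hdet : IsUnit X.Om'.det) (h2 : (2 : k) ≠ 0) (hΩ : X.VersΩ)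
    {g : Matrix J J k} (hg : ∀ l m, g l m = - g m l)
    (h0 : ∀ l m, X.arm l = X.arm m → g l m = 0)
    (h1 : ∀ l m, X.arm l = X.arm m → X.c l ≤ X.c m → ∑ j, g l j * X.Ω m j = 0)
    (hn : IsNilpotent (X.thg F g)) : g = 0 := by
  have h3 : X.thg F g = 0 := by
    refine X.noNilSkew hdet h2 hΩ ?_ (fun p a x hx => X.thg_mem_skew hdet hg h0 h1 p hx) hn
    intro x y
    rw [X.b_thg_skew hdet hg, X.b_symm F x, X.b_thg_skew hdet hg, gform_skew hg]
    
  refine eq_zero_of_gform (F := F) fun x y => ?_
  have h5 := X.b_thg_skew hdet hg (F := F) x y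
  rw [h3, LinearMap.zero_apply, map_zero, LinearMap.zero_apply] at h5
  exact neg_eq_zero.1 h5.symm

/-- **a symmetric or skew Higgs field which vanishes on a co-isotropic subspace is zero** -/
theorem higgs_zero (hdet : IsUnit X.Om'.det) (h2 : (2 : k) ≠ 0) (hΩ : X.VersΩ)
    {g : Matrix J J k} (hg : (∀ l m, g l m = g m l) ∨ ∀ l m, g l m = - g m l)
    (h0 : ∀ l m, X.arm l = X.arm m → g l m = 0)
    (h1 : ∀ l m, X.arm l = X.arm m → X.c l ≤ X.c m → ∑ j, g l j * X.Ω m j = 0)
    {W : Submodule F (J → F)} (hW : ∀ x ∈ W, ∀ y, gform F g x y = 0)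
    (hiso : ∀ u v, (∀ w ∈ W, X.b F u w = 0) → (∀ w ∈ W, X.b F v w = 0) → X.b F u v = 0) :
    g = 0 := by
  -- `W^⊥ ⊆ W^⊥⊥ = W`
  have hWW : ∀ u, (∀ w ∈ W, X.b F u w = 0) → ∀ y, gform F g u y = 0 := by
    intro u hu
    have huW : u ∈ W := by
      have h3 : (X.b F).IsRefl := fun x y h => by rw [X.b_symm]; exact h
      have h4 : (X.b F).Nondegenerate := by
        refine ⟨fun x hx => X.b_nondeg hdet x hx, fun x hx => X.b_nondeg hdet x fun y => ?_⟩
        rw [X.b_symm]
        exact hx y
      have h5 := LinearMap.BilinForm.orthogonal_orthogonal (B := X.b F) h4 h3 W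
      rw [← h5, LinearMap.BilinForm.mem_orthogonal_iff]
      intro v hv
      rw [LinearMap.BilinForm.mem_orthogonal_iff] at hv
      refine hiso v u (fun w hw => ?_) hu
      rw [X.b_symm]
      exact hv w hw
    exact hW u huW
  rcases hg with hg | hg
  · have hsq : X.thg F g ∘ₗ X.thg F g = 0 := by
      apply LinearMap.ext
      intro x
      apply X.b_nondeg hdet
      intro y
      rw [LinearMap.comp_apply, X.b_thg hdet hg]
      refine hWW _ (fun w hw => ?_) y
      rw [X.b_thg hdet hg, gform_symm hg]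
      exact hW w hw x
    refine X.N1_const (F := F) hdet h2 hΩ hg h0 h1 ?_
    have h6 : IsNilpotent (X.thg F g) := ⟨2, by rw [pow_two]; exact hsq⟩
    have h7 : LinearMap.toMatrix' (X.thg F g) = X.GG F * g.map (algebraMap k F) := by
      unfold thg
      rw [LinearMap.toMatrix'_toLin']
    rw [← h7]
    exact h6.map (LinearMap.toMatrixAlgEquiv' (R := F) (n := J))
  · have hsq : X.thg F g ∘ₗ X.thg F g = 0 := by
      apply LinearMap.ext
      intro x
      apply X.b_nondeg hdet
      intro y
      rw [LinearMap.comp_apply, X.b_thg_skew hdet hg, neg_eq_zero]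
      refine hWW _ (fun w hw => ?_) y
      rw [X.b_thg_skew hdet hg, gform_skew hg, neg_neg]
      exact hW w hw x
    exact X.N4_const (F := F) hdet h2 hΩ hg h0 h1 ⟨2, by rw [pow_two]; exact hsq⟩

end closed

end NData

end Vale.Agent.P182.H430
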