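import Vale.Agent.P182.H430.Pair2

/-!
# Nilpotency of (skew-)adjoint fields and their reductions ([NIL])

`Th` kills `A0` and is (anti-)selfadjoint, so it maps everything to `A0^⊥` and induces a field on
`E2 = A0^⊥/(A0 ∩ A0^⊥)`.  If the induced field vanishes on `R^⊥`, where `R` is an orthogonal
summand, it is the extension by zero of a field `ThR` on `R`; nilpotency of `ThR` gives nilpotency
of `Th`.
-/

namespace Vale.Agent.P182.H250

open LinearMap Submodule Module Vale.Agent.P182 Vale.Agent.P182.H430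

variable {F : Type*} [Field F]
variable {E : Type*} [AddCommGroup E] [Module F E]
variable {E2 : Type*} [AddCommGroup E2] [Module F E2]

/-- the field maps everything to the orthogonal of a subspace it kills -/
theorem nil_mem {B : LinearMap.BilinForm F E} (hB : ∀ x y, B x y = B y x) {A0 : Submodule F E}
    {ε : F} {Th : E →ₗ[F] E} (hK : ∀ a ∈ A0, Th a = 0)
    (hadj : ∀ u v, B (Th u) v = ε * B u (Th v)) (u : E) : Th u ∈ perp B A0 := by
  rw [mem_perp]
  intro a ha
  rw [hB, hadj, hK a ha, map_zero, mul_zero]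

/-- the induced field on the reduction -/
theorem exists_red {B : LinearMap.BilinForm F E} (hB : ∀ x y, B x y = B y x)
    {A0 : Submodule F E} {π : perp B A0 →ₗ[F] E2} (hs : Function.Surjective π)
    (hk : ∀ g : perp B A0, π g = 0 ↔ (g : E) ∈ A0) {B2 : LinearMap.BilinForm F E2}
    (hf : ∀ u v : perp B A0, B2 (π u) (π v) = B u v)
    {ε : F} {Th : E →ₗ[F] E} (hK : ∀ a ∈ A0, Th a = 0)
    (hadj : ∀ u v, B (Th u) v = ε * B u (Th v)) :
    ∃ T2 : E2 →ₗ[F] E2,
      (∀ g : perp B A0, T2 (π g) = π ⟨Th g, nil_mem hB hK hadj g⟩) ∧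
      (∀ g h : perp B A0, B2 (T2 (π g)) (π h) = B (Th g) h) ∧
      (∀ x y, B2 (T2 x) y = ε * B2 x (T2 y)) := by
  obtain ⟨s, hs'⟩ := hs.hasRightInverse
  have key : ∀ g g' : perp B A0, π g = π g' → Th (g : E) = Th (g' : E) := by
    intro g g' h
    have h1 : π (g - g') = 0 := by rw [map_sub, h, sub_self]
    rw [hk] at h1
    have h2 := hK _ h1
    rw [Submodule.coe_sub, map_sub, sub_eq_zero] at h2
    exact h2
  let T2 : E2 →ₗ[F] E2 :=
    { toFun := fun y => π ⟨Th (s y), nil_mem hB hK hadj (s y)⟩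
      map_add' := by
        intro x y
        rw [← map_add]
        congr 1
        apply Subtype.ext
        show Th (s (x + y)) = Th (s x) + Th (s y)
        rw [← map_add]
        have := key (s (x + y)) (s x + s y) (by rw [map_add, hs', hs', hs'])
        rw [this, Submodule.coe_add]
      map_smul' := by
        intro c x
        rw [RingHom.id_apply, ← map_smul]
        congr 1
        apply Subtype.ext
        show Th (s (c • x)) = c • Th (s x)
        rw [← map_smul]
        have := key (s (c • x)) (c • s x) (by rw [map_smul, hs', hs'])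
        rw [this, Submodule.coe_smul] }
  have h1 : ∀ g : perp B A0, T2 (π g) = π ⟨Th g, nil_mem hB hK hadj g⟩ := by
    intro g
    show π ⟨Th (s (π g)), _⟩ = _
    congr 1
    apply Subtype.ext
    exact key _ _ (hs' _)
  have h2 : ∀ g h : perp B A0, B2 (T2 (π g)) (π h) = B (Th g) h := by
    intro g h
    rw [h1, hf]
  refine ⟨T2, h1, h2, ?_⟩
  intro x y
  obtain ⟨g, rfl⟩ := hs x
  obtain ⟨h, rfl⟩ := hs y
  rw [h2, hadj, h1 h, hf]

/-- **[NIL], existence.**  The field on the orthogonal summand `R`. -/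
theorem exists_ThR {B : LinearMap.BilinForm F E} (hB : ∀ x y, B x y = B y x)
    {A0 : Submodule F E} {π : perp B A0 →ₗ[F] E2} (hs : Function.Surjective π)
    (hk : ∀ g : perp B A0, π g = 0 ↔ (g : E) ∈ A0) {B2 : LinearMap.BilinForm F E2}
    (hf : ∀ u v : perp B A0, B2 (π u) (π v) = B u v)
    {R : Submodule F E2} {e2 : E2 →ₗ[F] E2} (heR : ∀ x, e2 x ∈ R)
    (heP : ∀ x, x - e2 x ∈ perp B2 R)
    {ε : F} {Th : E →ₗ[F] E} (hK : ∀ a ∈ A0, Th a = 0)
    (hadj : ∀ u v, B (Th u) v = ε * B u (Th v)) :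
    ∃ ThR : R →ₗ[F] R, (∀ (y z : R) (g h : perp B A0), π g = y → π h = z →
      B2 (ThR y) z = B (Th g) h) ∧
      (∀ y z : R, B2 (ThR y) z = ε * B2 y (ThR z)) := by
  obtain ⟨T2, h1, h2, h3⟩ := exists_red hB hs hk hf hK hadj
  have hB2 : ∀ x y, B2 x y = B2 y x := by
    intro x y
    obtain ⟨u, rfl⟩ := hs x
    obtain ⟨v, rfl⟩ := hs y
    rw [hf, hf, hB]
  have key : ∀ (x : E2) (z : R), B2 (e2 x) z = B2 x z := by
    intro x z
    have := mem_perp.1 (heP x) z z.2
    rw [hB2, map_sub, LinearMap.sub_apply, sub_eq_zero] at this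
    exact this.symm
  refine ⟨(e2 ∘ₗ T2 ∘ₗ R.subtype).codRestrict R (fun x => heR _), ?_, ?_⟩
  · intro y z g h hg hh
    rw [LinearMap.codRestrict_apply, LinearMap.comp_apply, LinearMap.comp_apply,
      Submodule.subtype_apply, key, ← hg, ← hh, h2]
  · intro y z
    rw [LinearMap.codRestrict_apply, LinearMap.codRestrict_apply, LinearMap.comp_apply,
      LinearMap.comp_apply, LinearMap.comp_apply, LinearMap.comp_apply,
      Submodule.subtype_apply, Submodule.subtype_apply, key, h3, hB2 y (e2 _), key, hB2 y]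

/-- **[NIL].**  Nilpotency of the field on the summand gives nilpotency of the field. -/
theorem nil_of_ThR {B : LinearMap.BilinForm F E} (hB : ∀ x y, B x y = B y x)
    {A0 : Submodule F E} {π : perp B A0 →ₗ[F] E2} (hs : Function.Surjective π)
    (hk : ∀ g : perp B A0, π g = 0 ↔ (g : E) ∈ A0) {B2 : LinearMap.BilinForm F E2}
    (hnd : ∀ x, (∀ y, B2 x y = 0) → x = 0)
    (hf : ∀ u v : perp B A0, B2 (π u) (π v) = B u v)
    {R : Submodule F E2} {e2 : E2 →ₗ[F] E2} (heR : ∀ x, e2 x ∈ R)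
    (heP : ∀ x, x - e2 x ∈ perp B2 R)
    {ε : F} {Th : E →ₗ[F] E} (hK : ∀ a ∈ A0, Th a = 0)
    (hadj : ∀ u v, B (Th u) v = ε * B u (Th v))
    (hz : ∀ g h : perp B A0, π g ∈ perp B2 R → B (Th g) h = 0)
    {ThR : R →ₗ[F] R} (hR : ∀ (y z : R) (g h : perp B A0), π g = y → π h = z →
      B2 (ThR y) z = B (Th g) h)
    (hn : IsNilpotent ThR) : IsNilpotent Th := by
  obtain ⟨T2, h1, h2, h3⟩ := exists_red hB hs hk hf hK hadj
  have hB2 : ∀ x y, B2 x y = B2 y x := by
    intro x y
    obtain ⟨u, rfl⟩ := hs x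
    obtain ⟨v, rfl⟩ := hs y
    rw [hf, hf, hB]
  -- the induced field kills `R^⊥`
  have hz2 : ∀ x ∈ perp B2 R, T2 x = 0 := by
    intro x hx
    apply hnd
    intro y
    obtain ⟨g, rfl⟩ := hs x
    obtain ⟨h, rfl⟩ := hs y
    rw [h2, hz g h hx]
  -- and equals the extension by zero of `ThR`
  have h4 : ∀ x, T2 x = (ThR ⟨e2 x, heR x⟩ : E2) := by
    intro x
    have hx : T2 x = T2 (e2 x) := by
      have := hz2 _ (heP x)
      rw [map_sub, sub_eq_zero] at this
      exact this
    rw [← sub_eq_zero]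
    apply hnd
    intro y
    rw [map_sub, LinearMap.sub_apply, sub_eq_zero]
    have hy : ∀ w, B2 w y = B2 w (e2 y) + B2 w (y - e2 y) := by
      intro w
      rw [← map_add, add_sub_cancel]
    rw [hy (T2 x), hy (ThR _ : E2)]
    have ha : B2 (T2 x) (y - e2 y) = 0 := by
      rw [h3, hz2 _ (heP y), map_zero, mul_zero]
    have hb : B2 (ThR ⟨e2 x, heR x⟩ : E2) (y - e2 y) = 0 :=
      mem_perp.1 (heP y) _ (ThR ⟨e2 x, heR x⟩).2
    rw [ha, hb, add_zero, add_zero, hx]
    obtain ⟨g, hg⟩ := hs (e2 x)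
    obtain ⟨h, hh⟩ := hs (e2 y)
    have := hR ⟨e2 x, heR x⟩ ⟨e2 y, heR y⟩ g h hg hh
    rw [this, ← hg, ← hh, h2]
  -- powers
  have hpow : ∀ (n : ℕ) (x : E2), ∃ w : R, (T2 ^ (n + 1)) x = ((ThR ^ (n + 1)) w : E2) := by
    have heid : ∀ y : R, T2 y = (ThR y : E2) := by
      intro y
      have h5 : (e2 y : E2) = y := by
        have hm : (y : E2) - e2 y ∈ R := R.sub_mem y.2 (heR _)
        rw [← sub_eq_zero, ← neg_eq_zero, neg_sub]
        apply hnd
        intro w
        have e : B2 ((y : E2) - e2 y) w = B2 ((y : E2) - e2 y) (e2 w) +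
            B2 ((y : E2) - e2 y) (w - e2 w) := by rw [← map_add, add_sub_cancel]
        rw [e, mem_perp.1 (heP w) _ hm, add_zero, hB2]
        exact mem_perp.1 (heP y) _ (heR w)
      rw [h4]
      congr 2
      exact Subtype.ext h5
    intro n x
    refine ⟨⟨e2 x, heR x⟩, ?_⟩
    induction n with
    | zero => simpa using h4 x
    | succ n ih =>
      rw [pow_succ' T2, pow_succ' ThR, Module.End.mul_apply, Module.End.mul_apply, ih, heid]
  obtain ⟨n, hn⟩ := hn
  have hT2 : ∀ x, (T2 ^ (n + 1)) x = 0 := by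
    intro x
    obtain ⟨w, hw⟩ := hpow n x
    rw [hw, pow_succ', hn, mul_zero]
    rfl
  -- lift to `E`
  have hlift : ∀ (m : ℕ) (g : perp B A0), ∃ g' : perp B A0, (g' : E) = (Th ^ m) g ∧
      π g' = (T2 ^ m) (π g) := by
    intro m
    induction m with
    | zero => exact fun g => ⟨g, by simp, by simp⟩
    | succ m ih =>
      intro g
      obtain ⟨g', hg', hp⟩ := ih g
      refine ⟨⟨Th g', nil_mem hB hK hadj g'⟩, ?_, ?_⟩
      · rw [pow_succ', Module.End.mul_apply, ← hg']
      · rw [← h1, hp, pow_succ', Module.End.mul_apply]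
  refine ⟨1 + (n + 1) + 1, ?_⟩
  apply LinearMap.ext
  intro u
  rw [pow_add, pow_add, pow_one, Module.End.mul_apply, Module.End.mul_apply, LinearMap.zero_apply]
  obtain ⟨g', hg', hp⟩ := hlift (n + 1) ⟨Th u, nil_mem hB hK hadj u⟩
  have : (Th ^ (n + 1)) (Th u) = (g' : E) := by rw [hg']
  rw [this]
  apply hK
  rw [← hk, hp, hT2]

/-- the orthogonal projection onto a nondegenerate subspace -/
theorem exists_orthProj [FiniteDimensional F E2] {B2 : LinearMap.BilinForm F E2}
    (hB2 : ∀ x y, B2 x y = B2 y x) {R : Submodule F E2}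
    (hR : ∀ x ∈ R, x ∈ perp B2 R → x = 0) :
    ∃ e2 : E2 →ₗ[F] E2, (∀ x, e2 x ∈ R) ∧ (∀ x, x - e2 x ∈ perp B2 R) ∧ (∀ x ∈ R, e2 x = x) ∧
      (∀ x y, B2 (e2 x) y = B2 x (e2 y)) := by
  have hinj : Function.Injective (B2.compl₁₂ R.subtype R.subtype) := by
    rw [injective_iff_map_eq_zero]
    intro x hx
    apply Subtype.ext
    apply hR x x.2
    rw [mem_perp]
    intro y hy
    rw [hB2]
    exact LinearMap.congr_fun hx ⟨y, hy⟩
  have hbij : Function.Bijective (B2.compl₁₂ R.subtype R.subtype) :=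
    ⟨hinj, (LinearMap.injective_iff_surjective_of_finrank_eq_finrank
      (Subspace.dual_finrank_eq).symm).1 hinj⟩
  let eq := LinearEquiv.ofBijective _ hbij
  let f : E2 →ₗ[F] Dual F R := B2.compl₂ R.subtype
  let e : E2 →ₗ[F] R := eq.symm.toLinearMap ∘ₗ f
  have he : ∀ x (y : R), B2 (e x) y = B2 x y := by
    intro x y
    have : eq (e x) = f x := by
      show eq (eq.symm (f x)) = f x
      rw [LinearEquiv.apply_symm_apply]
    exact LinearMap.congr_fun this y
  have h2 : ∀ x, x - (e x : E2) ∈ perp B2 R := by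
    intro x
    rw [mem_perp]
    intro y hy
    rw [hB2, map_sub, LinearMap.sub_apply, sub_eq_zero]
    exact (he x ⟨y, hy⟩).symm
  refine ⟨R.subtype ∘ₗ e, fun x => (e x).2, h2, ?_, ?_⟩
  · intro x hx
    have h3 := hR (x - (e x : E2)) (R.sub_mem hx (e x).2) (h2 x)
    exact (sub_eq_zero.1 h3).symm
  · intro x y
    show B2 (e x : E2) y = B2 x (e y : E2)
    have h4 : B2 (e x : E2) (y - (e y : E2)) = 0 := mem_perp.1 (h2 y) _ (e x).2
    have h5 : B2 (x - (e x : E2)) (e y : E2) = 0 := by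
      rw [hB2]
      exact mem_perp.1 (h2 x) _ (e y).2
    rw [map_sub, sub_eq_zero] at h4
    rw [map_sub, LinearMap.sub_apply, sub_eq_zero] at h5
    rw [h4, h5]

end Vale.Agent.P182.H250
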