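import Vale.Agent.P182.H96.Gen5

/-!
# Errors of intertwiners modulo a nilpotent part

`U = ∑ S_a U`, words kill `I`, `Z a : U → I` with `Z a ∘ S b = S a ∘ Z b` modulo a stable `Y`:
then `Z a` maps `U` into `Y`. If moreover `R (S b u) - c T (S b u) = T (Z b u)` then
`R u - c T u` lies in `T Y`; in particular `R = c T` on `U` when `Y = 0`.
-/

namespace Vale.Agent.P182.H250

open Module Vale.Agent.P182.H96.Tl

variable {L V X : Type*} [Field L] [AddCommGroup V] [Module L V] [AddCommGroup X] [Module L X]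

theorem err_mem {S : Fin 3 → End L V} {U I Y : Submodule L V}
    (hU : U ≤ ⨆ a, U.map (S a)) {N : ℕ} (hN : itI S I N = ⊥) (hY : ∀ a, ∀ v ∈ Y, S a v ∈ Y)
    {Z : Fin 3 → End L V} (hZ : ∀ a, ∀ u ∈ U, Z a u ∈ I)
    (h : ∀ a b, ∀ u ∈ U, Z a (S b u) - S a (Z b u) ∈ Y) : ∀ a, ∀ u ∈ U, Z a u ∈ Y := by
  have key : ∀ n, ∀ a, ∀ u ∈ U, Z a u ∈ itI S I n ⊔ Y := by
    intro n
    induction n with
    | zero => exact fun a u hu => Submodule.mem_sup_left (hZ a u hu)
    | succ n ih =>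
      intro a u hu
      have h1 : U ≤ (itI S I (n + 1) ⊔ Y).comap (Z a) := by
        refine hU.trans (iSup_le fun b => ?_)
        rintro _ ⟨w, hw, rfl⟩
        rw [Submodule.mem_comap]
        have h2 : Z a (S b w) = (Z a (S b w) - S a (Z b w)) + S a (Z b w) := by abel
        rw [h2]
        refine Submodule.add_mem _ (Submodule.mem_sup_right (h a b w hw)) ?_
        obtain ⟨i, hi, y, hy, hiy⟩ := Submodule.mem_sup.1 (ih b w hw)
        rw [← hiy, map_add]
        refine Submodule.add_mem _ (Submodule.mem_sup_left ?_) (Submodule.mem_sup_right (hY a y hy))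
        exact (le_iSup (fun a => (itI S I n).map (S a)) a) ⟨i, hi, rfl⟩
      exact h1 hu
  intro a u hu
  have h1 := key N a u hu
  rwa [hN, bot_sup_eq] at h1

/-- the error of `R` against `c T` lies in `T Y` -/
theorem err_map {S : Fin 3 → End L V} {U I Y : Submodule L V}
    (hU : U ≤ ⨆ a, U.map (S a)) {N : ℕ} (hN : itI S I N = ⊥) (hY : ∀ a, ∀ v ∈ Y, S a v ∈ Y)
    {Z : Fin 3 → End L V} (hZ : ∀ a, ∀ u ∈ U, Z a u ∈ I)
    (h : ∀ a b, ∀ u ∈ U, Z a (S b u) - S a (Z b u) ∈ Y) {R T : V →ₗ[L] X} {c : L}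
    (hR : ∀ b, ∀ u ∈ U, R (S b u) - c • T (S b u) = T (Z b u)) :
    ∀ u ∈ U, R u - c • T u ∈ Y.map T := by
  have h1 : U ≤ (Y.map T).comap (R - c • T) := by
    refine hU.trans (iSup_le fun b => ?_)
    rintro _ ⟨w, hw, rfl⟩
    rw [Submodule.mem_comap, LinearMap.sub_apply, LinearMap.smul_apply, hR b w hw]
    exact ⟨_, err_mem hU hN hY hZ h b w hw, rfl⟩
  intro u hu
  exact h1 hu

/-- exactness on a block -/
theorem eq_of_words {S : Fin 3 → End L V} {U I : Submodule L V}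
    (hU : U ≤ ⨆ a, U.map (S a)) {N : ℕ} (hN : itI S I N = ⊥)
    {Z : Fin 3 → End L V} (hZ : ∀ a, ∀ u ∈ U, Z a u ∈ I)
    (h : ∀ a b, ∀ u ∈ U, Z a (S b u) = S a (Z b u)) {R T : V →ₗ[L] X} {c : L}
    (hR : ∀ b, ∀ u ∈ U, R (S b u) - c • T (S b u) = T (Z b u)) :
    (∀ a, ∀ u ∈ U, Z a u = 0) ∧ ∀ u ∈ U, R u = c • T u := by
  have hY : ∀ a : Fin 3, ∀ v ∈ (⊥ : Submodule L V), S a v ∈ (⊥ : Submodule L V) := by
    intro a v hv
    rw [(Submodule.mem_bot L).1 hv, map_zero]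
    exact Submodule.zero_mem _
  have h' : ∀ a b, ∀ u ∈ U, Z a (S b u) - S a (Z b u) ∈ (⊥ : Submodule L V) := by
    intro a b u hu
    rw [h a b u hu, sub_self]
    exact Submodule.zero_mem _
  refine ⟨fun a u hu => (Submodule.mem_bot L).1 (err_mem hU hN hY hZ h' a u hu), fun u hu => ?_⟩
  have h1 := err_map hU hN hY hZ h' hR u hu
  rw [Submodule.map_bot, Submodule.mem_bot, sub_eq_zero] at h1
  exact h1

end Vale.Agent.P182.H250
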